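import Vale.Agent.P219.Nine.Poly

/-!
# P219, dimension nine: the closed form certificate

The weight at a centre is `u (r, c) = (wA r - c ^ 2 * wB r) / (2200 * r ^ 4 * (2 + r) ^ 3)` with `c` the
cosine at the centre. The functions below are multiplied by `2200`. The defect of the line inequality is
not concave in the product of the cosines for nearly equal large cosines; it is after subtracting
`1000000 * max 0 (s - 1) ^ 2 * (q - (s / 2) ^ 2) ^ 2`, which the edge `d = 1` can afford.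
-/

noncomputable section

namespace Vale.Agent.P219.CH.Nine

/-- The part of the numerator of the weight that is free of the cosine. -/
def wA (r : ℝ) : ℝ :=
  18700 + 28050 * r + 23188 * r ^ 2 + 27394 * r ^ 3 + 14127 * r ^ 4 + 4224 * r ^ 5 + 704 * r ^ 6

/-- The part of the numerator of the weight along the square of the cosine. -/
def wB (r : ℝ) : ℝ := 67872 * r + 26208 * r ^ 2

/-- The numerator of the derivative of the free part. -/
def dA (r : ℝ) : ℝ :=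
  (28050 + 46376 * r + 82182 * r ^ 2 + 56508 * r ^ 3 + 21120 * r ^ 4 + 4224 * r ^ 5) *
    (2 * r + r ^ 2) - wA r * (10 + 8 * r)

/-- The numerator of the derivative of the part along the cosine. -/
def dB (r : ℝ) : ℝ := (67872 + 52416 * r) * (2 * r + r ^ 2) - wB r * (14 + 10 * r)

/-- The one-sided integrand. -/
def psi (r c d : ℝ) : ℝ :=
  2200 + (8 * (2 + r) * (wA r - c ^ 2 * wB r)
    + (1 - d ^ 2) * (dA r - c ^ 2 * dB r - 2 * c ^ 2 * wB r * (2 + r))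
    - wB r * (2 + r) * (c * d) * (2 - c ^ 2 - d ^ 2)
    - 8 * r * d * (2 + r) * (wA r - c ^ 2 * wB r)) / (r ^ 5 * (2 + r) ^ 4)

/-- The coefficient of the marginal terms. -/
def aCoef (t : ℝ) : ℝ :=
  t ^ 2 * (-112200 - 336600 * t - 359040 * t ^ 2 - 451008 * t ^ 3 - 329344 * t ^ 4 + 363456 * t ^ 5
    + 235200 * t ^ 6 - 202752 * t ^ 7 - 67584 * t ^ 8) / (1 + t) ^ 3

/-- The polynomial part of `-aCoef t / t`. -/
def hpol (t : ℝ) : ℝ :=
  -1276800 + 1256256 * t - 1005248 * t ^ 2 + 882816 * t ^ 3 - 437952 * t ^ 4 + 67584 * t ^ 6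

/-- The sum of `hpol` at two points, in `s` and `q`. -/
def hsum (s q : ℝ) : ℝ :=
  -2553600 + 1256256 * s - 1005248 * (s ^ 2 - 2 * q) + 882816 * (s ^ 3 - 3 * q * s)
    - 437952 * (s ^ 4 - 4 * q * s ^ 2 + 2 * q ^ 2)
    + 67584 * (s ^ 6 - 6 * q * s ^ 4 + 9 * q ^ 2 * s ^ 2 - 2 * q ^ 3)

/-- The sum of the rational parts, in `s` and `q`. -/
def rsum (s q : ℝ) : ℝ :=
  1403480 * (2 + s) / (1 + s + q)
    - 120616 * ((2 + s) ^ 2 - 2 * (1 + s + q)) / (1 + s + q) ^ 2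
    - 6064 * ((2 + s) ^ 3 - 3 * (2 + s) * (1 + s + q)) / (1 + s + q) ^ 3

/-- The defect of the line inequality, in `s` and `q`. -/
def lineF (r s q : ℝ) : ℝ :=
  symS r s q * (r ^ 3 / (2 + r) ^ 4) + q * (hsum s q + rsum s q) - 168300 * q * r

theorem psi_sym {r : ℝ} (hr : 0 < r) (c d : ℝ) :
    r ^ 5 * (2 + r) ^ 4 * (psi r c d + psi r d c) = symS r (c + d) (c * d) := by
  unfold psi symS dA dB wA wB
  field_simp
  ring

theorem aCoef_eq {t : ℝ} (ht : 0 ≤ t) :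
    -aCoef t =
      t * (hpol t + 1403480 / (1 + t) - 120616 / (1 + t) ^ 2 - 6064 / (1 + t) ^ 3) := by
  have : 0 < 1 + t := by linarith
  unfold aCoef hpol
  field_simp
  ring

theorem rsum_eq {c d : ℝ} (hc : 0 ≤ c) (hd : 0 ≤ d) :
    rsum (c + d) (c * d) =
      1403480 / (1 + c) - 120616 / (1 + c) ^ 2 - 6064 / (1 + c) ^ 3 +
        (1403480 / (1 + d) - 120616 / (1 + d) ^ 2 - 6064 / (1 + d) ^ 3) := by
  have h1 : 0 < 1 + c := by linarith
  have h2 : 0 < 1 + d := by linarith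
  unfold rsum
  rw [show 1 + (c + d) + c * d = (1 + c) * (1 + d) by ring]
  field_simp
  ring

theorem lineF_eq {r c d : ℝ} (hc : 0 ≤ c) (hd : 0 ≤ d) :
    lineF r (c + d) (c * d) =
      symS r (c + d) (c * d) * (r ^ 3 / (2 + r) ^ 4) - aCoef c * d - aCoef d * c
        - 168300 * (c * d) * r := by
  have e1 := aCoef_eq hc
  have e2 := aCoef_eq hd
  have e3 := rsum_eq hc hd
  have e4 : hsum (c + d) (c * d) = hpol c + hpol d := by unfold hsum hpol; ring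
  rw [lineF, e3, e4]
  linear_combination (-d) * e1 - c * e2

theorem aCoef_nonpos {t : ℝ} (h0 : 0 ≤ t) (h1 : t ≤ 1) : aCoef t ≤ 0 := by
  refine div_nonpos_of_nonpos_of_nonneg (mul_nonpos_of_nonneg_of_nonpos (sq_nonneg t) ?_)
    (by positivity)
  have := pow_le_pow_of_le_one h0 h1 (show 3 ≤ 5 by norm_num)
  have := pow_le_pow_of_le_one h0 h1 (show 4 ≤ 6 by norm_num)
  have := pow_nonneg h0 7
  have := pow_nonneg h0 8
  have := pow_nonneg h0 3
  have := pow_nonneg h0 4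
  have := sq_nonneg t
  linarith

/-- The marginal coefficient dominates its leading term. -/
theorem aCoef_le {t : ℝ} (h0 : 0 ≤ t) (h1 : t ≤ 1) : aCoef t ≤ -112200 * t ^ 2 := by
  have : 0 < 1 + t := by linarith
  rw [aCoef, div_le_iff₀ (by positivity)]
  have := pow_le_pow_of_le_one h0 h1 (show 6 ≤ 7 by norm_num)
  have := pow_le_pow_of_le_one h0 h1 (show 5 ≤ 7 by norm_num)
  have := pow_le_pow_of_le_one h0 h1 (show 5 ≤ 8 by norm_num)
  have := pow_le_pow_of_le_one h0 h1 (show 6 ≤ 8 by norm_num)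
  have := pow_nonneg h0 5
  have := pow_nonneg h0 4
  have := pow_nonneg h0 6
  have := pow_nonneg h0 9
  have := pow_nonneg h0 10
  linarith

theorem aCoef_one : aCoef 1 = -157484 := by norm_num [aCoef]

/-! ## The symmetrised integrand -/

theorem sym_edge_zero {r c : ℝ} (hr : 0 ≤ r) (hc : 0 ≤ c) (hc1 : c ≤ 1) : 0 < symS r c 0 := by
  have hc2 : c ^ 2 ≤ 1 := pow_le_one₀ hc hc1
  have := sq_nonneg c
  have := mul_le_mul_of_nonneg_left
    (show -19376 ≤ 448800 - 299200 * c - 168976 * c ^ 2 by linarith) hr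
  have := mul_le_mul_of_nonneg_left
    (show -78540 ≤ 519860 - 598400 * c + 5526 * c ^ 2 by linarith) (pow_nonneg hr 2)
  have := mul_le_mul_of_nonneg_left
    (show 154800 ≤ 750208 - 595408 * c + 196288 * c ^ 2 by linarith) (pow_nonneg hr 3)
  have := mul_le_mul_of_nonneg_left
    (show -63888 ≤ 559920 - 623808 * c + 165224 * c ^ 2 by linarith) (pow_nonneg hr 4)
  have := mul_le_mul_of_nonneg_left
    (show -126600 ≤ 318584 - 445184 * c + 56508 * c ^ 2 by linarith) (pow_nonneg hr 5)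
  have := mul_le_mul_of_nonneg_left
    (show 27784 ≤ 208384 - 180600 * c + 11264 * c ^ 2 by linarith) (pow_nonneg hr 6)
  have := mul_le_mul_of_nonneg_left
    (show 68992 ≤ 114048 - 45056 * c + 1408 * c ^ 2 by linarith) (pow_nonneg hr 7)
  have := mul_le_mul_of_nonneg_left
    (show 29568 ≤ 35200 - 5632 * c by linarith) (pow_nonneg hr 8)
  have := pow_nonneg hr 9
  unfold symS
  linarith [mul_nonneg (pow_nonneg hr 1) (sq_nonneg (r - 7 / 10)),
    mul_nonneg (pow_nonneg hr 2) (sq_nonneg (r - 7 / 10)),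
    mul_nonneg (pow_nonneg hr 5) (sq_nonneg (r - 7 / 10)),
    mul_nonneg (pow_nonneg hr 6) (sq_nonneg (r - 7 / 10)),
    mul_nonneg (pow_nonneg hr 7) (sq_nonneg (r - 7 / 10)),
    sq_nonneg (r - 9 / 10),
    mul_nonneg (pow_nonneg hr 1) (sq_nonneg (r - 9 / 10)),
    mul_nonneg (pow_nonneg hr 3) (sq_nonneg (r - 9 / 10)),
    mul_nonneg (pow_nonneg hr 4) (sq_nonneg (r - 9 / 10))]

theorem cosines_mem {c d : ℝ} (hc : 0 ≤ c) (hc1 : c ≤ 1) (hd : 0 ≤ d) (hd1 : d ≤ 1) :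
    max 0 (c + d - 1) ≤ c * d ∧ c * d ≤ ((c + d) / 2) ^ 2 :=
  ⟨max_le (mul_nonneg hc hd) (by nlinarith [mul_nonneg (sub_nonneg.2 hc1) (sub_nonneg.2 hd1)]),
    by nlinarith [sq_nonneg (c - d)]⟩

theorem symS_low {r s : ℝ} (hr : 0 ≤ r) (hs : 0 ≤ s) (hs2 : s ≤ 2) :
    0 < symS r s (max 0 (s - 1)) := by
  rcases le_total s 1 with h | h
  · rw [max_eq_left (by linarith)]; exact sym_edge_zero hr hs h
  · rw [max_eq_right (by linarith)]
    simpa using sym_edge_one hr (c := s - 1) (by linarith) (by linarith)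

theorem symS_high {r s : ℝ} (hr : 0 ≤ r) (hs : 0 ≤ s) (hs2 : s ≤ 2) :
    0 < symS r s ((s / 2) ^ 2) := by
  simpa [mul_div_cancel₀] using sym_edge_diag hr (c := s / 2) (by linarith) (by linarith)

/-- A function above its secant on an interval with nonnegative end values is nonnegative. -/
theorem secant {f : ℝ → ℝ} {q0 q1 q : ℝ} (h0 : q0 ≤ q) (h1 : q ≤ q1) (hf0 : 0 ≤ f q0)
    (hf1 : 0 ≤ f q1) (h : (q1 - q) * f q0 + (q - q0) * f q1 ≤ (q1 - q0) * f q) : 0 ≤ f q := by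
  rcases eq_or_lt_of_le (h0.trans h1) with he | he
  · rwa [show q = q0 by linarith]
  refine nonneg_of_mul_nonneg_right (a := q1 - q0) (le_trans ?_ h) (by linarith)
  exact add_nonneg (mul_nonneg (sub_nonneg.2 h1) hf0) (mul_nonneg (sub_nonneg.2 h0) hf1)

theorem symS_secant {r s q0 q1 q : ℝ} (hr : 0 ≤ r) (h0 : q0 ≤ q) (h1 : q ≤ q1) :
    (q1 - q) * symS r s q0 + (q - q0) * symS r s q1 ≤ (q1 - q0) * symS r s q := by
  have := mul_nonneg (show 0 ≤ 1628928 * r + 1745856 * r ^ 2 + 419328 * r ^ 3 by positivity)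
    (mul_nonneg (mul_nonneg (sub_nonneg.2 h0) (sub_nonneg.2 h1))
      (sub_nonneg.2 (h0.trans h1)))
  unfold symS
  linear_combination this

/-- The symmetrised integrand is nonnegative. -/
theorem symS_nonneg {r c d : ℝ} (hr : 0 ≤ r) (hc : 0 ≤ c) (hc1 : c ≤ 1) (hd : 0 ≤ d)
    (hd1 : d ≤ 1) : 0 ≤ symS r (c + d) (c * d) := by
  obtain ⟨h0, h1⟩ := cosines_mem hc hc1 hd hd1
  exact secant (f := symS r (c + d)) h0 h1 (symS_low hr (by linarith) (by linarith)).le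
    (symS_high hr (by linarith) (by linarith)).le (symS_secant hr h0 h1)

/-! ## The line inequality on the edges -/

/-- Consecutive powers decrease. -/
theorem step {c : ℝ} (hc : 0 ≤ c) (hc1 : c ≤ 1) (k : ℕ) : c ^ (k + 1) ≤ c ^ k :=
  pow_le_pow_of_le_one hc hc1 (Nat.le_succ k)

theorem diagJ_nonneg {r t : ℝ} (hr : 0 ≤ r) (ht : 0 ≤ t) (ht1 : t ≤ 1) : 0 ≤ diagJ r t := by
  have p := fun k => pow_nonneg ht k
  have m1 : t ^ 2 ≤ t ^ 1 := step ht ht1 1
  have m0 : t ^ 1 ≤ t ^ 0 := step ht ht1 0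
  have m2 : t ^ 3 ≤ t ^ 2 := step ht ht1 2
  have m3 : t ^ 4 ≤ t ^ 3 := step ht ht1 3
  have m4 : t ^ 5 ≤ t ^ 4 := step ht ht1 4
  have m5 : t ^ 6 ≤ t ^ 5 := step ht ht1 5
  have m6 : t ^ 7 ≤ t ^ 6 := step ht ht1 6
  unfold diagJ
  repeat' first
    | linarith [p 1, p 2, p 3, p 4, p 5, p 6, p 7, p 8, p 9]
    | exact pow_nonneg hr _
    | exact hr
    | refine mul_nonneg ?_ ?_
    | refine add_nonneg ?_ ?_

theorem line_diag {r t : ℝ} (hr : 0 ≤ r) (ht : 0 ≤ t) (ht1 : t ≤ 1) :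
    0 ≤ lineF r (2 * t) (t ^ 2) := by
  have h1t : 0 < 1 + t := by linarith
  have h2r : 0 < 2 + r := by linarith
  have he : lineF r (2 * t) (t ^ 2) * ((2 + r) ^ 4 * (1 + t) ^ 3) =
      (r - 2 * t) ^ 2 * diagJ r t := by
    rw [show 2 * t = t + t by ring, show t ^ 2 = t * t by ring, lineF_eq ht ht]
    unfold symS aCoef diagJ
    field_simp
    ring
  refine nonneg_of_mul_nonneg_left (b := (2 + r) ^ 4 * (1 + t) ^ 3) ?_ (by positivity)
  rw [he]
  exact mul_nonneg (sq_nonneg _) (diagJ_nonneg hr ht ht1)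

theorem edge0_ge {c : ℝ} (hc : 0 ≤ c) :
    844758 + 6728096 * c + 16481496 * c ^ 2 + 23997920 * c ^ 3 + 28400144 * c ^ 4
      + 32202068 * c ^ 5 ≤ edge0 c := by
  have h : 0 ≤ 45533024 * c ^ 6 + 59163616 * c ^ 7 + 49086618 * c ^ 8 + 24113340 * c ^ 9
      + 6872696 * c ^ 10 + 1058432 * c ^ 11 + 69168 * c ^ 12 + 176 * c ^ 13 := by positivity
  unfold edge0
  linarith

theorem abs_edge1_le {c : ℝ} (hc : 0 ≤ c) (hc1 : c ≤ 1) :
    |edge1 c| ≤ 4480250 + 19981132 * c + 29369600 * c ^ 2 + 21699180 * c ^ 3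
      + 8350548 * c ^ 4 := by
  have p := fun k => pow_nonneg hc k
  have m := fun k => step hc hc1 k
  unfold edge1
  rw [abs_le]
  constructor <;>
    linarith [p 1, p 2, p 3, p 4, p 5, p 6, p 7, p 8, p 9, p 10, p 11, p 12, p 13,
      (show c ^ 1 ≤ c ^ 0 from m 0), (show c ^ 2 ≤ c ^ 1 from m 1), (show c ^ 3 ≤ c ^ 2 from m 2),
      (show c ^ 4 ≤ c ^ 3 from m 3), (show c ^ 5 ≤ c ^ 4 from m 4),
      (show c ^ 6 ≤ c ^ 5 from m 5), (show c ^ 7 ≤ c ^ 6 from m 6),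
      (show c ^ 8 ≤ c ^ 7 from m 7), (show c ^ 9 ≤ c ^ 8 from m 8),
      (show c ^ 10 ≤ c ^ 9 from m 9), (show c ^ 11 ≤ c ^ 10 from m 10),
      (show c ^ 12 ≤ c ^ 11 from m 11), (show c ^ 13 ≤ c ^ 12 from m 12)]

theorem edge1_sq {c : ℝ} (hc : 0 ≤ c) (hc1 : c ≤ 1) :
    edge1 c ^ 2 ≤ 4 * edge0 c * (10000000 * (1 + 2 * c)) := by
  obtain ⟨h0, h1⟩ := abs_le.1 (abs_edge1_le hc hc1)
  have hA := mul_le_mul_of_nonneg_right (edge0_ge hc)
    (show 0 ≤ 4 * (10000000 * (1 + 2 * c)) by positivity)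
  have hB := sq_le_sq' h0 h1
  have p := fun k => pow_nonneg hc k
  have m := fun k => step hc hc1 k
  linarith [p 1, p 2, p 3, p 4, p 5, p 6, p 7, p 8, (show c ^ 1 ≤ c ^ 0 from m 0),
      (show c ^ 2 ≤ c ^ 1 from m 1), (show c ^ 3 ≤ c ^ 2 from m 2),
      (show c ^ 4 ≤ c ^ 3 from m 3), (show c ^ 5 ≤ c ^ 4 from m 4),
      (show c ^ 6 ≤ c ^ 5 from m 5), (show c ^ 7 ≤ c ^ 6 from m 6), (show c ^ 8 ≤ c ^ 7 from m 7)]

/-- The square coefficient on the edge `d = 1`. -/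
def edgeSq (v c : ℝ) : ℝ :=
  edge2 c + v * edge3 c + v ^ 2 * (edge4 c + v * edge5 c) + v ^ 4 * (edge6 c + v * edge7 c)
    + v ^ 6 * (edge8 c + v * edge9 c) + v ^ 8 * (edge10 c + v * edge11 c) + v ^ 10 * edge12 c

theorem pair_nonneg {v a b : ℝ} (hv : -(2 / 5) ≤ v) (hb : 0 ≤ b) (hab : 2 / 5 * b ≤ a) :
    0 ≤ a + v * b := by
  linarith [mul_le_mul_of_nonneg_right hv hb]

theorem edge_low {v c : ℝ} (hc : 0 ≤ c) (hc1 : c ≤ 1)
    (hv : -(643 / 10000 + 7047 / 10000 * c - 3713 / 10000 * c ^ 2) ≤ v) :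
    10000000 * (1 + 2 * c) ≤ edge2 c + v * edge3 c + v ^ 2 * (edge4 c - 2 / 5 * edge5 c) := by
  have p := fun k => pow_nonneg hc k
  have m := fun k => step hc hc1 k
  obtain ⟨H, hH⟩ : ∃ H, H = edge3 c - 3 / 5 * c * (edge4 c - 2 / 5 * edge5 c) := ⟨_, rfl⟩
  have hH0 : 0 ≤ H := by
    rw [hH]
    unfold edge3 edge4 edge5
    linarith [p 1, p 2, p 3, p 4, p 5, p 6, p 7, p 8, p 9, p 10, p 11, p 12, p 13,
      (show c ^ 1 ≤ c ^ 0 from m 0), (show c ^ 2 ≤ c ^ 1 from m 1), (show c ^ 3 ≤ c ^ 2 from m 2),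
      (show c ^ 4 ≤ c ^ 3 from m 3), (show c ^ 5 ≤ c ^ 4 from m 4),
      (show c ^ 6 ≤ c ^ 5 from m 5), (show c ^ 7 ≤ c ^ 6 from m 6),
      (show c ^ 8 ≤ c ^ 7 from m 7), (show c ^ 9 ≤ c ^ 8 from m 8),
      (show c ^ 10 ≤ c ^ 9 from m 9), (show c ^ 11 ≤ c ^ 10 from m 10),
      (show c ^ 12 ≤ c ^ 11 from m 11), (show c ^ 13 ≤ c ^ 12 from m 12)]
  have hg : 0 ≤ edge4 c - 2 / 5 * edge5 c := by
    unfold edge4 edge5
    linarith [p 1, p 2, p 3, p 4, p 5, p 6, p 7, p 8, p 9, p 10, p 11]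
  have h1 := mul_nonneg hg (sq_nonneg (v + 3 / 10 * c))
  have h2 := mul_le_mul_of_nonneg_right hv hH0
  have h3 : 10000000 * (1 + 2 * c) ≤ edge2 c
      - 9 / 100 * c ^ 2 * (edge4 c - 2 / 5 * edge5 c)
      + -(643 / 10000 + 7047 / 10000 * c - 3713 / 10000 * c ^ 2) * H := by
    rw [hH]
    unfold edge2 edge3 edge4 edge5
    linarith [p 1, p 2, p 3, p 4, p 5, p 6, p 7, p 8, p 9, p 10, p 11, p 12, p 13, p 14,
      (show c ^ 1 ≤ c ^ 0 from m 0), (show c ^ 2 ≤ c ^ 1 from m 1),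
      (show c ^ 3 ≤ c ^ 2 from m 2), (show c ^ 4 ≤ c ^ 3 from m 3),
      (show c ^ 5 ≤ c ^ 4 from m 4), (show c ^ 6 ≤ c ^ 5 from m 5),
      (show c ^ 7 ≤ c ^ 6 from m 6), (show c ^ 8 ≤ c ^ 7 from m 7),
      (show c ^ 9 ≤ c ^ 8 from m 8), (show c ^ 10 ≤ c ^ 9 from m 9),
      (show c ^ 11 ≤ c ^ 10 from m 10), (show c ^ 12 ≤ c ^ 11 from m 11),
      (show c ^ 13 ≤ c ^ 12 from m 12), (show c ^ 14 ≤ c ^ 13 from m 13)]
  have e : v * H = v * edge3 c - 2 * (v * (3 / 10 * c)) * (edge4 c - 2 / 5 * edge5 c) := by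
    rw [hH]; ring
  linarith

theorem vmin_le {c : ℝ} : 643 / 10000 + 7047 / 10000 * c - 3713 / 10000 * c ^ 2 ≤ 2 / 5 := by
  linarith [sq_nonneg (c - 7047 / 7426)]

theorem edgeSq_ge {v c : ℝ} (hc : 0 ≤ c) (hc1 : c ≤ 1)
    (hv : -(643 / 10000 + 7047 / 10000 * c - 3713 / 10000 * c ^ 2) ≤ v) :
    10000000 * (1 + 2 * c) ≤ edgeSq v c := by
  have hC := edge_low hc hc1 hv
  have hv2 : -(2 / 5) ≤ v := by linarith [vmin_le (c := c)]
  have p := fun k => pow_nonneg hc k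
  have h5 : 0 ≤ edge5 c := by unfold edge5; positivity
  have h4 : v ^ 2 * (edge4 c - 2 / 5 * edge5 c) ≤ v ^ 2 * (edge4 c + v * edge5 c) := by
    refine mul_le_mul_of_nonneg_left ?_ (sq_nonneg v)
    linarith [mul_le_mul_of_nonneg_right hv2 h5]
  have h6 : 0 ≤ edge6 c + v * edge7 c := by
    refine pair_nonneg hv2 ?_ ?_ <;> unfold edge7 <;> [skip; unfold edge6] <;>
      linarith [p 1, p 2, p 3, p 4, p 5, p 6, p 7, p 8, p 9]
  have h8 : 0 ≤ edge8 c + v * edge9 c := by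
    refine pair_nonneg hv2 ?_ ?_ <;> unfold edge9 <;> [skip; unfold edge8] <;>
      linarith [p 1, p 2, p 3, p 4, p 5, p 6, p 7]
  have h10 : 0 ≤ edge10 c + v * edge11 c := by
    refine pair_nonneg hv2 ?_ ?_ <;> unfold edge11 <;> [skip; unfold edge10] <;>
      linarith [p 1, p 2, p 3, p 4, p 5]
  have h12 : 0 ≤ edge12 c := by unfold edge12; positivity
  have := mul_nonneg (show 0 ≤ v ^ 4 by positivity) h6
  have := mul_nonneg (show 0 ≤ v ^ 6 by positivity) h8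
  have := mul_nonneg (show 0 ≤ v ^ 8 by positivity) h10
  have := mul_nonneg (show 0 ≤ v ^ 10 by positivity) h12
  unfold edgeSq
  linarith

theorem line_edge_expand {v c : ℝ} (hc : 0 ≤ c) (h : 0 < 3 + c + v) :
    (lineF (1 + c + v) (c + 1) c - 62500 * c ^ 2 * (1 - c) ^ 4) *
        ((2 + (1 + c + v)) ^ 4 * (1 + c) ^ 3) =
      edge0 c * (c - 1) ^ 2 + edge1 c * (c - 1) * v + edgeSq v c * v ^ 2 := by
  have e := lineF_eq (r := 1 + c + v) hc zero_le_one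
  rw [mul_one] at e
  rw [e]
  have h1 : (0 : ℝ) < 1 + c := by linarith
  have h2 : 2 + (1 + c + v) ≠ 0 := by linarith
  rw [aCoef_one]
  unfold symS aCoef edgeSq edge0 edge1 edge2 edge3 edge4 edge5 edge6 edge7 edge8 edge9 edge10
    edge11 edge12
  field_simp
  ring

theorem quad_nonneg {a b e x : ℝ} (ha : 0 < a) (h : b ^ 2 ≤ 4 * a * e) :
    0 ≤ a * x ^ 2 + b * x + e := by
  have : 0 ≤ 4 * a * (a * x ^ 2 + b * x + e) := by nlinarith [sq_nonneg (2 * a * x + b)]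
  exact nonneg_of_mul_nonneg_right this (by positivity)

theorem line_edge_one {r c : ℝ} (hr : 0 ≤ r) (hc : 0 ≤ c) (hc1 : c ≤ 1) :
    62500 * c ^ 2 * (1 - c) ^ 4 ≤ lineF r (c + 1) c := by
  rcases le_total r (9357 / 10000 + 2953 / 10000 * c + 3713 / 10000 * c ^ 2) with h | h
  · have e := lineF_eq (r := r) hc zero_le_one
    rw [mul_one] at e
    rw [e, aCoef_one]
    have h2 := aCoef_le hc hc1
    have h3 : 0 ≤ symS r (c + 1) c * (r ^ 3 / (2 + r) ^ 4) :=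
      mul_nonneg (sym_edge_one hr hc hc1).le (by positivity)
    have h4 := mul_le_mul_of_nonneg_left h hc
    have h5 : (1 - c) ^ 4 ≤ 1 - c :=
      pow_le_of_le_one (sub_nonneg.2 hc1) (by linarith) (by norm_num)
    have h6 := mul_le_mul_of_nonneg_left h5 (sq_nonneg c)
    have := mul_le_mul_of_nonneg_left hc1 (sq_nonneg c)
    have := pow_nonneg hc 3
    linarith
  · obtain ⟨v, hv⟩ : ∃ v, r = 1 + c + v := ⟨r - 1 - c, by ring⟩
    subst hv
    rw [← sub_nonneg]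
    refine nonneg_of_mul_nonneg_left (b := (2 + (1 + c + v)) ^ 4 * (1 + c) ^ 3) ?_
      (mul_pos (pow_pos (by linarith) 4) (pow_pos (by linarith) 3))
    rw [line_edge_expand hc (by linarith)]
    have hA : 0 < edge0 c := by
      have := edge0_ge hc
      have := sq_nonneg c
      have := pow_nonneg hc 3
      have := pow_nonneg hc 4
      have := pow_nonneg hc 5
      linarith
    have hC := edgeSq_ge hc hc1 (v := v) (by linarith)
    have hB : edge1 c ^ 2 ≤ 4 * edge0 c * edgeSq v c :=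
      (edge1_sq hc hc1).trans (mul_le_mul_of_nonneg_left hC (by positivity))
    have := quad_nonneg (x := c - 1) (b := edge1 c * v) (e := edgeSq v c * v ^ 2) hA (by
      rw [mul_pow, ← mul_assoc]
      exact mul_le_mul_of_nonneg_right hB (sq_nonneg v))
    linarith

theorem lineF_low {r s : ℝ} (hr : 0 ≤ r) (hs : 0 ≤ s) (hs2 : s ≤ 2) :
    1000000 * max 0 (s - 1) ^ 2 * (max 0 (s - 1) - (s / 2) ^ 2) ^ 2 ≤
      lineF r s (max 0 (s - 1)) := by
  rcases le_total s 1 with h | h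
  · rw [max_eq_left (by linarith)]
    simpa [lineF] using mul_nonneg (sym_edge_zero hr hs h).le
      (show 0 ≤ r ^ 3 / (2 + r) ^ 4 by positivity)
  · rw [max_eq_right (by linarith)]
    obtain ⟨c, hc⟩ : ∃ c, s = c + 1 := ⟨s - 1, by ring⟩
    subst hc
    rw [show c + 1 - 1 = c by ring, show 1000000 * c ^ 2 * (c - ((c + 1) / 2) ^ 2) ^ 2 =
      62500 * c ^ 2 * (1 - c) ^ 4 by ring]
    exact line_edge_one hr (by linarith) (by linarith)

theorem lineF_high {r s : ℝ} (hr : 0 ≤ r) (hs : 0 ≤ s) (hs2 : s ≤ 2) :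
    0 ≤ lineF r s ((s / 2) ^ 2) := by
  simpa [mul_div_cancel₀] using line_diag (t := s / 2) hr (by linarith) (by linarith)

/-! ## Concavity in the product of the cosines -/

theorem hsum_secant (s q0 q1 q : ℝ) :
    (q1 - q0) * (q * hsum s q) = (q1 - q) * (q0 * hsum s q0) + (q - q0) * (q1 * hsum s q1)
      - (2010496 - 2648448 * s + 1751808 * s ^ 2 - 405504 * s ^ 4
        + (608256 * s ^ 2 - 875904) * (q0 + q + q1)
        - 135168 * (q0 ^ 2 + q ^ 2 + q1 ^ 2 + q0 * q + q0 * q1 + q * q1)) *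
        ((q - q0) * (q1 - q) * (q1 - q0)) := by
  unfold hsum
  ring

theorem inv_secant {a b m : ℝ} (ha : a ≠ 0) (hb : b ≠ 0) (hm : m ≠ 0) :
    (b - a) / m = (b - m) / a + (m - a) / b - (m - a) * (b - m) * (b - a) / (a * m * b) ∧
    (b - a) / m ^ 2 = (b - m) / a ^ 2 + (m - a) / b ^ 2
      - (m - a) * (b - m) * (b - a) / (a * m * b) * (1 / a + 1 / m + 1 / b) ∧
    (b - a) / m ^ 3 = (b - m) / a ^ 3 + (m - a) / b ^ 3
      - (m - a) * (b - m) * (b - a) / (a * m * b) *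
        ((1 / a) ^ 2 + (1 / m) ^ 2 + (1 / b) ^ 2 + 1 / a * (1 / m) + 1 / a * (1 / b)
          + 1 / m * (1 / b)) := by
  refine ⟨?_, ?_, ?_⟩ <;> · field_simp; ring

/-- The rational part through the reciprocal of `1 + s + q`. -/
theorem rsum_form {s q : ℝ} (hM : 1 + s + q ≠ 0) :
    q * rsum s q = 1403480 * (2 + s) + 241232
      + (-120616 * (2 + s) ^ 2 + 18192 * (2 + s)
          - (1 + s) * (1403480 * (2 + s) + 241232)) / (1 + s + q)
      + (-6064 * (2 + s) ^ 3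
          - (1 + s) * (-120616 * (2 + s) ^ 2 + 18192 * (2 + s))) / (1 + s + q) ^ 2
      + 6064 * (2 + s) ^ 3 * (1 + s) / (1 + s + q) ^ 3 := by
  unfold rsum
  field_simp
  ring

/-- The product of the three denominators against the linear bound of its reciprocal. -/
theorem prod_bound {g a b c : ℝ} (hg : 0 ≤ g) (ha : 0 ≤ a) (hb : 0 ≤ b) (hc : 0 ≤ c) :
    (g + a) * (g + b) * (g + c) * (g - (a + b + c)) ≤ g ^ 4 := by
  have : 0 ≤ g ^ 2 * (a ^ 2 + b ^ 2 + c ^ 2 + a * b + a * c + b * c)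
      + g * ((a * b + a * c + b * c) * (a + b + c) - a * b * c)
      + a * b * c * (a + b + c) := by
    have : a * b * c ≤ (a * b + a * c + b * c) * (a + b + c) := by
      nlinarith [mul_nonneg ha hb, mul_nonneg ha hc, mul_nonneg hb hc]
    have := sub_nonneg.2 this
    positivity
  linarith

theorem rsum_secant {s q0 q1 q : ℝ} (hs : 0 ≤ s) (hq0 : 0 ≤ q0) (h0 : q0 ≤ q) (h1 : q ≤ q1) :
    (q1 - q) * (q0 * rsum s q0) + (q - q0) * (q1 * rsum s q1)
        + (2010496 + 3432168 * s + 1144056 * s ^ 2) * ((q - q0) * (q1 - q) * (q1 - q0)) *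
          (1 + s + q0 - (q + q1 - 2 * q0)) / (1 + s + q0) ^ 4 ≤ (q1 - q0) * (q * rsum s q) := by
  have ha : 0 < 1 + s + q0 := by linarith
  have hm : 0 < 1 + s + q := by linarith
  have hb : 0 < 1 + s + q1 := by linarith
  obtain ⟨i1, i2, i3⟩ := inv_secant ha.ne' hb.ne' hm.ne'
  obtain ⟨K, hK⟩ : ∃ K, K = (q - q0) * (q1 - q) * (q1 - q0) /
      ((1 + s + q0) * (1 + s + q) * (1 + s + q1)) := ⟨_, rfl⟩
  obtain ⟨x, hx⟩ : ∃ x, x = 1 / (1 + s + q0) := ⟨_, rfl⟩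
  obtain ⟨y, hy⟩ : ∃ y, y = 1 / (1 + s + q) := ⟨_, rfl⟩
  obtain ⟨z, hz⟩ : ∃ z, z = 1 / (1 + s + q1) := ⟨_, rfl⟩
  rw [show 1 + s + q1 - (1 + s + q0) = q1 - q0 by ring,
    show 1 + s + q1 - (1 + s + q) = q1 - q by ring,
    show 1 + s + q - (1 + s + q0) = q - q0 by ring, ← hK] at i1 i2 i3
  rw [← hx, ← hy, ← hz] at i2 i3
  rw [rsum_form ha.ne', rsum_form hm.ne', rsum_form hb.ne']
  obtain ⟨P, hP⟩ : ∃ P, P = (q - q0) * (q1 - q) * (q1 - q0) := ⟨_, rfl⟩
  rw [← hP] at hK ⊢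
  have hP0 : 0 ≤ P := hP ▸
    mul_nonneg (mul_nonneg (sub_nonneg.2 h0) (sub_nonneg.2 h1)) (sub_nonneg.2 (h0.trans h1))
  have hK0 : 0 ≤ K := hK ▸ div_nonneg hP0 (by positivity)
  have k : ∀ w : ℝ, 0 ≤ w → (1 + s) * (1 / (1 + s + w)) ≤ 1 := fun w hw => by
    rw [mul_one_div, div_le_one (by linarith)]
    linarith
  have kx : (1 + s) * x ≤ 1 := hx ▸ k q0 hq0
  have ky : (1 + s) * y ≤ 1 := hy ▸ k q (hq0.trans h0)
  have kz : (1 + s) * z ≤ 1 := hz ▸ k q1 (by linarith)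
  have x0 : 0 ≤ (1 + s) * x := by rw [hx]; positivity
  have y0 : 0 ≤ (1 + s) * y := by rw [hy]; positivity
  have z0 : 0 ≤ (1 + s) * z := by rw [hz]; positivity
  have k1 : (1 + s) * (x + y + z) ≤ 3 := by linarith
  have k2 : (1 + s) ^ 2 * (x ^ 2 + y ^ 2 + z ^ 2 + x * y + x * z + y * z) ≤ 6 := by
    have := mul_le_mul kx kx x0 zero_le_one
    have := mul_le_mul ky ky y0 zero_le_one
    have := mul_le_mul kz kz z0 zero_le_one
    have := mul_le_mul kx ky y0 zero_le_one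
    have := mul_le_mul kx kz z0 zero_le_one
    have := mul_le_mul ky kz z0 zero_le_one
    linarith
  obtain ⟨w1, hw1⟩ : ∃ w1, w1 = 120616 * (2 + s) ^ 2 - 18192 * (2 + s) := ⟨_, rfl⟩
  have hc2 : 0 ≤ -6064 * (2 + s) ^ 3 + (1 + s) * w1 := by rw [hw1]; nlinarith [sq_nonneg s]
  have e1 := mul_le_mul_of_nonneg_left k1 (mul_nonneg hc2 hK0)
  have e2 := mul_le_mul_of_nonneg_left k2
    (show 0 ≤ 6064 * (2 + s) ^ 3 * K by positivity)
  have e3 : P * (1 + s + q0 - (q + q1 - 2 * q0)) / (1 + s + q0) ^ 4 ≤ K := by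
    rw [hK, div_le_div_iff₀ (by positivity) (by positivity)]
    have := prod_bound ha.le le_rfl (sub_nonneg.2 h0) (sub_nonneg.2 (h0.trans h1))
    have := mul_le_mul_of_nonneg_left this hP0
    linarith
  have e4 := mul_le_mul_of_nonneg_left e3
    (show 0 ≤ (1 + s) * (2010496 + 3432168 * s + 1144056 * s ^ 2) by positivity)
  have e5 : (2 + s) ^ 3 ≤ (1 + s) * (s ^ 2 + 5 * s + 8) := by linarith
  have e6 := mul_le_mul_of_nonneg_left e5 (mul_nonneg (show (0 : ℝ) ≤ 18192 by norm_num) hK0)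
  rw [hw1] at e1
  refine le_of_mul_le_mul_left ?_ (show (0 : ℝ) < 1 + s by linarith)
  linear_combination (-((1 + s) * (-120616 * (2 + s) ^ 2 + 18192 * (2 + s)
      - (1 + s) * (1403480 * (2 + s) + 241232)))) * i1
    - (1 + s) * (-6064 * (2 + s) ^ 3
      - (1 + s) * (-120616 * (2 + s) ^ 2 + 18192 * (2 + s))) * i2
    - (1 + s) * (6064 * (2 + s) ^ 3 * (1 + s)) * i3 + e1 + e2 + e4 + e6

/-- The bound of the bend at an end of the range of the sum of the three products. -/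
theorem bend_end {s q0 S : ℝ} (hs : 0 ≤ s) (hs2 : s ≤ 2) (hq0 : q0 = max 0 (s - 1))
    (hS : S = 3 * q0 ∨ S = 3 / 4 * s ^ 2) :
    (2010496 - 2648448 * s + 1751808 * s ^ 2 - 405504 * s ^ 4 + (608256 * s ^ 2 - 875904) * S
        - 811008 * q0 ^ 2 - 1000000 * q0 ^ 2) * (1 + s + q0) ^ 4 ≤
      (2010496 + 3432168 * s + 1144056 * s ^ 2) * (1 + s + q0 - (S - 3 * q0)) := by
  rcases le_total s 1 with h | h
  · rw [max_eq_left (by linarith)] at hq0
    subst hq0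
    have b : ∀ i j : ℕ, 0 ≤ s ^ i * (1 - s) ^ j := fun i j =>
      mul_nonneg (pow_nonneg hs i) (pow_nonneg (sub_nonneg.2 h) j)
    rcases hS with e | e <;> subst e <;>
      linarith [b 1 7, b 2 6, b 3 5, b 4 4, b 5 3, b 6 2, b 7 1, b 8 0]
  · rw [max_eq_right (by linarith)] at hq0
    obtain ⟨c, hc⟩ : ∃ c, s = c + 1 := ⟨s - 1, by ring⟩
    subst hc
    rw [show c + 1 - 1 = c by ring] at hq0
    subst hq0
    have b : ∀ i j : ℕ, 0 ≤ q0 ^ i * (1 - q0) ^ j := fun i j =>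
      mul_nonneg (pow_nonneg (by linarith) i) (pow_nonneg (by linarith) j)
    rcases hS with e | e <;> subst e <;>
      linarith [b 0 8, b 1 7, b 2 6, b 3 5, b 4 4, b 5 3, b 6 2, b 7 1, b 8 0]

/-- The bend of the defect against the penalty. -/
theorem bend {s q0 q1 q : ℝ} (hs : 0 ≤ s) (hs2 : s ≤ 2) (hq0 : q0 = max 0 (s - 1)) (h0 : q0 ≤ q)
    (h1 : q ≤ q1) (hq1 : q1 = (s / 2) ^ 2) :
    2010496 - 2648448 * s + 1751808 * s ^ 2 - 405504 * s ^ 4
        + (608256 * s ^ 2 - 875904) * (q0 + q + q1)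
        - 135168 * (q0 ^ 2 + q ^ 2 + q1 ^ 2 + q0 * q + q0 * q1 + q * q1)
        - 1000000 * q0 ^ 2 ≤
      (2010496 + 3432168 * s + 1144056 * s ^ 2) * (1 + s + q0 - (q + q1 - 2 * q0)) /
        (1 + s + q0) ^ 4 := by
  have hn : 0 ≤ q0 := hq0 ▸ le_max_left _ _
  have hg : 0 < 1 + s + q0 := by linarith
  have hS : 0 ≤ (2010496 + 3432168 * s + 1144056 * s ^ 2) * (1 + s + q0 - (q + q1 - 2 * q0))
      - (2010496 - 2648448 * s + 1751808 * s ^ 2 - 405504 * s ^ 4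
        + (608256 * s ^ 2 - 875904) * (q0 + q + q1) - 811008 * q0 ^ 2 - 1000000 * q0 ^ 2) *
          (1 + s + q0) ^ 4 := by
    have f0 := bend_end hs hs2 hq0 (S := 3 * q0) (Or.inl rfl)
    have f1 := bend_end hs hs2 hq0 (S := 3 / 4 * s ^ 2) (Or.inr rfl)
    refine secant (f := fun S => (2010496 + 3432168 * s + 1144056 * s ^ 2) *
        (1 + s + q0 - (S - 3 * q0))
        - (2010496 - 2648448 * s + 1751808 * s ^ 2 - 405504 * s ^ 4
          + (608256 * s ^ 2 - 875904) * S - 811008 * q0 ^ 2 - 1000000 * q0 ^ 2) *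
            (1 + s + q0) ^ 4) (q0 := 3 * q0) (q1 := 3 / 4 * s ^ 2) (q := q0 + q + q1)
      (by linarith) (by rw [hq1] at h1 ⊢; linarith) (sub_nonneg.2 f0) (sub_nonneg.2 f1)
      (le_of_eq (by ring)) |>.trans (le_of_eq (by ring))
  have h6 : 6 * q0 ^ 2 ≤ q0 ^ 2 + q ^ 2 + q1 ^ 2 + q0 * q + q0 * q1 + q * q1 := by
    have hb := h0.trans h1
    have := mul_le_mul h0 h0 hn (hn.trans h0)
    have := mul_le_mul hb hb hn (hn.trans hb)
    have := mul_le_mul h0 hb hn (hn.trans h0)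
    have := mul_le_mul_of_nonneg_left h0 hn
    have := mul_le_mul_of_nonneg_left hb hn
    linarith
  rw [le_div_iff₀ (by positivity)]
  have := mul_le_mul_of_nonneg_right h6 (show 0 ≤ 135168 * (1 + s + q0) ^ 4 by positivity)
  linarith

/-- The defect is nonnegative, being concave in the product up to the penalty. -/
theorem lineF_nonneg {r s q : ℝ} (hr : 0 ≤ r) (hs : 0 ≤ s) (hs2 : s ≤ 2)
    (h0 : max 0 (s - 1) ≤ q) (h1 : q ≤ (s / 2) ^ 2) : 0 ≤ lineF r s q := by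
  obtain ⟨q0, hq0⟩ : ∃ z, z = max 0 (s - 1) := ⟨_, rfl⟩
  obtain ⟨q1, hq1⟩ : ∃ z, z = (s / 2) ^ 2 := ⟨_, rfl⟩
  rw [← hq0] at h0
  rw [← hq1] at h1
  have hn : 0 ≤ q0 := hq0 ▸ le_max_left _ _
  have k1 := mul_le_mul_of_nonneg_right (symS_secant (s := s) hr h0 h1)
    (show 0 ≤ r ^ 3 / (2 + r) ^ 4 by positivity)
  have k2 := hsum_secant s q0 q1 q
  have k3 := rsum_secant hs hn h0 h1
  have hb := bend hs hs2 hq0 h0 h1 hq1
  obtain ⟨X, hX⟩ : ∃ X, X = (q - q0) * (q1 - q) * (q1 - q0) := ⟨_, rfl⟩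
  have hX0 : 0 ≤ X := hX ▸
    mul_nonneg (mul_nonneg (sub_nonneg.2 h0) (sub_nonneg.2 h1)) (sub_nonneg.2 (h0.trans h1))
  have k4 := mul_le_mul_of_nonneg_right hb hX0
  rw [← hX] at k2 k3
  have key : 0 ≤ lineF r s q - 1000000 * q0 ^ 2 * (q - q1) ^ 2 := by
    refine secant (f := fun z => lineF r s z - 1000000 * q0 ^ 2 * (z - q1) ^ 2) h0 h1 ?_ ?_ ?_
    · have := lineF_low hr hs hs2
      rw [← hq0, ← hq1] at this
      linarith
    · have := lineF_high hr hs hs2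
      rw [← hq1] at this
      simpa using this
    · rw [hX] at k2 k3 k4
      simp only [lineF]
      linear_combination k1 + k3 + k4 - k2
  linarith [mul_nonneg (show 0 ≤ 1000000 * q0 ^ 2 by positivity) (sq_nonneg (q - q1))]

/-- The line inequality, with equality for `r = 2 c = 2 d`. -/
theorem line_inequality {r c d : ℝ} (hr : 0 < r) (hc : 0 ≤ c) (hc1 : c ≤ 1) (hd : 0 ≤ d)
    (hd1 : d ≤ 1) :
    aCoef c * d + aCoef d * c + 168300 * (c * d) * r ≤ r ^ 8 * (psi r c d + psi r d c) := by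
  obtain ⟨h0, h1⟩ := cosines_mem hc hc1 hd hd1
  have h := lineF_nonneg hr.le (by linarith) (by linarith) h0 h1
  rw [lineF_eq hc hd, ← psi_sym hr] at h
  have e : r ^ 5 * (2 + r) ^ 4 * (psi r c d + psi r d c) * (r ^ 3 / (2 + r) ^ 4) =
      r ^ 8 * (psi r c d + psi r d c) := by
    field_simp
  rw [e] at h
  linarith

/-- The symmetrised integrand is nonnegative. -/
theorem psi_nonneg {r c d : ℝ} (hr : 0 < r) (hc : 0 ≤ c) (hc1 : c ≤ 1) (hd : 0 ≤ d)
    (hd1 : d ≤ 1) : 0 ≤ psi r c d + psi r d c := by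
  refine nonneg_of_mul_nonneg_right (a := r ^ 5 * (2 + r) ^ 4) ?_ (by positivity)
  rw [psi_sym hr]
  exact symS_nonneg hr.le hc hc1 hd hd1

/-- The same after the regularisation of the distance. -/
theorem line_regular {r ρ c d : ℝ} (hr : 0 ≤ r) (hρ : r ≤ ρ) (hρ0 : 0 < ρ) (hc : 0 ≤ c)
    (hc1 : c ≤ 1) (hd : 0 ≤ d) (hd1 : d ≤ 1) :
    aCoef c * d + aCoef d * c + 168300 * (c * d) * r * (r / ρ) ^ 7 ≤
      r ^ 8 * (psi ρ c d + psi ρ d c) := by
  obtain ⟨k, hk⟩ : ∃ k, k = (r / ρ) ^ 8 := ⟨_, rfl⟩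
  have hk0 : 0 ≤ k := by rw [hk]; positivity
  have hk1 : k ≤ 1 := hk ▸ pow_le_one₀ (div_nonneg hr hρ0.le) ((div_le_one hρ0).2 hρ)
  have h1 := mul_le_mul_of_nonneg_left (line_inequality hρ0 hc hc1 hd hd1) hk0
  have hn : aCoef c * d + aCoef d * c ≤ 0 := add_nonpos
    (mul_nonpos_of_nonpos_of_nonneg (aCoef_nonpos hc hc1) hd)
    (mul_nonpos_of_nonpos_of_nonneg (aCoef_nonpos hd hd1) hc)
  have e1 : k * ρ = r * (r / ρ) ^ 7 := by rw [hk]; field_simp
  have e2 : k * (ρ ^ 8 * (psi ρ c d + psi ρ d c)) = r ^ 8 * (psi ρ c d + psi ρ d c) := by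
    rw [hk]; field_simp
  have h3 : k * (168300 * (c * d) * ρ) = 168300 * (c * d) * r * (r / ρ) ^ 7 := by
    calc k * (168300 * (c * d) * ρ) = 168300 * (c * d) * (k * ρ) := by ring
      _ = _ := by rw [e1]; ring
  have h4 := mul_le_mul_of_nonpos_right hk1 hn
  linarith

end Vale.Agent.P219.CH.Nine
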