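import Mathlib

/-!
# P219, dimension nine: the polynomials of the closed form certificate

`symS` is the symmetrised integrand; on its two curved edges it is a Bernstein combination, on each
half of the range of the cosine, of polynomials in `r` with an explicit nonnegativity certificate.
-/

noncomputable section

namespace Vale.Agent.P219.CH.Nine

/-- The symmetrised integrand times `r ^ 5 * (2 + r) ^ 4`, in `s = c + d` and `q = c d`. -/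
def symS (r s q : ℝ) : ℝ :=
  (224400 + 187000 * s ^ 2 - 374000 * q)
  + r * (448800 - 299200 * s - 168976 * s ^ 2 - 205024 * q + 271488 * s ^ 2 * q - 1628928 * q ^ 2)
  + r ^ 2 * (519860 - 598400 * s + 5526 * s ^ 2 - 492204 * q + 1085952 * s * q + 240576 * s ^ 2 * q
    - 1745856 * q ^ 2)
  + r ^ 3 * (750208 - 595408 * s + 196288 * s ^ 2 - 497408 * q + 962304 * s * q + 52416 * s ^ 2 * q
    - 419328 * q ^ 2)
  + r ^ 4 * (559920 - 623808 * s + 165224 * s ^ 2 - 330448 * q + 209664 * s * q)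
  + r ^ 5 * (318584 - 445184 * s + 56508 * s ^ 2 - 113016 * q)
  + r ^ 6 * (208384 - 180600 * s + 11264 * s ^ 2 - 22528 * q)
  + r ^ 7 * (114048 - 45056 * s + 1408 * s ^ 2 - 2816 * q)
  + r ^ 8 * (35200 - 5632 * s)
  + r ^ 9 * (4400)

theorem one_low_0 {r : ℝ} (hr : 0 ≤ r) :
    0 <
      411400 - 19376 * r - 73014 * r ^ 2 + 351088 * r ^ 3 + 101336 * r ^ 4 - 70092 * r ^ 5 + 39048 * r ^ 6
        + 70400 * r ^ 7 + 29568 * r ^ 8 + 4400 * r ^ 9 := by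
  linarith [
    pow_nonneg hr 3,
    pow_nonneg hr 4,
    sq_nonneg (r - 3 / 10),
    mul_nonneg (pow_nonneg hr 1) (sq_nonneg (r - 3 / 10)),
    mul_nonneg (pow_nonneg hr 4) (sq_nonneg (r - 3 / 10)),
    mul_nonneg (pow_nonneg hr 5) (sq_nonneg (r - 3 / 10)),
    mul_nonneg (pow_nonneg hr 6) (sq_nonneg (r - 3 / 10)),
    mul_nonneg (pow_nonneg hr 7) (sq_nonneg (r - 3 / 10)),
    mul_nonneg (pow_nonneg hr 4) (sq_nonneg (r - 9 / 20))]

theorem one_low_1 {r : ℝ} (hr : 0 ≤ r) :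
    0 <
      411400 - 343472 / 3 * r - 95554 / 3 * r ^ 2 + 1210504 / 3 * r ^ 3 + 32312 * r ^ 4 - 432868 / 3 * r ^ 5
        + 8948 * r ^ 6 + 188672 / 3 * r ^ 7 + 85888 / 3 * r ^ 8 + 4400 * r ^ 9 := by
  linarith [
    sq_nonneg (r - 3 / 10),
    mul_nonneg (pow_nonneg hr 1) (sq_nonneg (r - 3 / 10)),
    sq_nonneg (r - 9 / 20),
    mul_nonneg (pow_nonneg hr 4) (sq_nonneg (r - 7 / 10)),
    mul_nonneg (pow_nonneg hr 5) (sq_nonneg (r - 7 / 10)),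
    mul_nonneg (pow_nonneg hr 6) (sq_nonneg (r - 7 / 10)),
    mul_nonneg (pow_nonneg hr 7) (sq_nonneg (r - 7 / 10)),
    mul_nonneg (pow_nonneg hr 3) (sq_nonneg (r - 9 / 10)),
    mul_nonneg (pow_nonneg hr 4) (sq_nonneg (r - 9 / 10))]

theorem one_low_2 {r : ℝ} (hr : 0 ≤ r) :
    0 <
      1280950 / 3 - 942548 / 3 * r - 30745 / 6 * r ^ 2 + 526256 * r ^ 3 - 16414 / 3 * r ^ 4 - 641333 / 3 * r ^ 5
        - 60640 / 3 * r ^ 6 + 166496 / 3 * r ^ 7 + 83072 / 3 * r ^ 8 + 4400 * r ^ 9 := by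
  linarith [
    mul_nonneg (pow_nonneg hr 1) (sq_nonneg (r - 9 / 20)),
    sq_nonneg (r - 11 / 20),
    mul_nonneg (pow_nonneg hr 1) (sq_nonneg (r - 11 / 20)),
    mul_nonneg (pow_nonneg hr 5) (sq_nonneg (r - 9 / 10)),
    mul_nonneg (pow_nonneg hr 6) (sq_nonneg (r - 9 / 10)),
    mul_nonneg (pow_nonneg hr 7) (sq_nonneg (r - 9 / 10)),
    mul_nonneg (pow_nonneg hr 3) (sq_nonneg (r - 5 / 4)),
    mul_nonneg (pow_nonneg hr 4) (sq_nonneg (r - 5 / 4)),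
    mul_nonneg (pow_nonneg hr 5) (sq_nonneg (r - 5 / 4))]

theorem one_low_3 {r : ℝ} (hr : 0 ≤ r) :
    0 <
      458150 - 584516 * r + 74479 / 2 * r ^ 2 + 725904 * r ^ 3 - 12014 * r ^ 4 - 278557 * r ^ 5
        - 48436 * r ^ 6 + 48224 * r ^ 7 + 26752 * r ^ 8 + 4400 * r ^ 9 := by
  linarith [
    mul_nonneg (pow_nonneg hr 1) (sq_nonneg (r - 3 / 5)),
    sq_nonneg (r - 7 / 10),
    mul_nonneg (pow_nonneg hr 1) (sq_nonneg (r - 7 / 10)),
    mul_nonneg (pow_nonneg hr 4) (sq_nonneg (r - 5 / 4)),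
    mul_nonneg (pow_nonneg hr 5) (sq_nonneg (r - 5 / 4)),
    mul_nonneg (pow_nonneg hr 6) (sq_nonneg (r - 5 / 4)),
    mul_nonneg (pow_nonneg hr 7) (sq_nonneg (r - 5 / 4)),
    mul_nonneg (pow_nonneg hr 3) (sq_nonneg (r - 3 / 2)),
    mul_nonneg (pow_nonneg hr 4) (sq_nonneg (r - 3 / 2))]

theorem one_high_0 {r : ℝ} (hr : 0 ≤ r) :
    0 <
      458150 - 584516 * r + 74479 / 2 * r ^ 2 + 725904 * r ^ 3 - 12014 * r ^ 4 - 278557 * r ^ 5
        - 48436 * r ^ 6 + 48224 * r ^ 7 + 26752 * r ^ 8 + 4400 * r ^ 9 := by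
  linarith [
    mul_nonneg (pow_nonneg hr 1) (sq_nonneg (r - 3 / 5)),
    sq_nonneg (r - 7 / 10),
    mul_nonneg (pow_nonneg hr 1) (sq_nonneg (r - 7 / 10)),
    mul_nonneg (pow_nonneg hr 4) (sq_nonneg (r - 5 / 4)),
    mul_nonneg (pow_nonneg hr 5) (sq_nonneg (r - 5 / 4)),
    mul_nonneg (pow_nonneg hr 6) (sq_nonneg (r - 5 / 4)),
    mul_nonneg (pow_nonneg hr 7) (sq_nonneg (r - 5 / 4)),
    mul_nonneg (pow_nonneg hr 3) (sq_nonneg (r - 3 / 2)),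
    mul_nonneg (pow_nonneg hr 4) (sq_nonneg (r - 3 / 2))]

theorem one_high_1 {r : ℝ} (hr : 0 ≤ r) :
    0 <
      1467950 / 3 - 2564548 / 3 * r + 477619 / 6 * r ^ 2 + 925552 * r ^ 3 - 55670 / 3 * r ^ 4 - 1030009 / 3 * r ^ 5
        - 229976 / 3 * r ^ 6 + 122848 / 3 * r ^ 7 + 77440 / 3 * r ^ 8 + 4400 * r ^ 9 := by
  linarith [
    mul_nonneg (pow_nonneg hr 1) (sq_nonneg (r - 7 / 10)),
    sq_nonneg (r - 9 / 10),
    mul_nonneg (pow_nonneg hr 1) (sq_nonneg (r - 9 / 10)),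
    mul_nonneg (pow_nonneg hr 4) (sq_nonneg (r - 3 / 2)),
    mul_nonneg (pow_nonneg hr 5) (sq_nonneg (r - 3 / 2)),
    mul_nonneg (pow_nonneg hr 6) (sq_nonneg (r - 3 / 2)),
    mul_nonneg (pow_nonneg hr 7) (sq_nonneg (r - 3 / 2)),
    mul_nonneg (pow_nonneg hr 3) (sq_nonneg (r - 33 / 20)),
    mul_nonneg (pow_nonneg hr 4) (sq_nonneg (r - 33 / 20))]

theorem one_high_2 {r : ℝ} (hr : 0 ≤ r) :
    0 <
      1608200 / 3 - 1195824 * r + 412810 / 3 * r ^ 2 + 3606280 / 3 * r ^ 3 + 18424 / 3 * r ^ 4 - 1210220 / 3 * r ^ 5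
        - 311828 / 3 * r ^ 6 + 33792 * r ^ 7 + 74624 / 3 * r ^ 8 + 4400 * r ^ 9 := by
  linarith [
    sq_nonneg (r - 9 / 10),
    sq_nonneg (r - 5 / 4),
    mul_nonneg (pow_nonneg hr 3) (mul_nonneg (sq_nonneg (r - 3 / 10)) (sq_nonneg (r - 37 / 20))),
    mul_nonneg (pow_nonneg hr 4) (mul_nonneg (sq_nonneg (r - 3 / 10)) (sq_nonneg (r - 37 / 20))),
    mul_nonneg (pow_nonneg hr 5) (mul_nonneg (sq_nonneg (r - 3 / 10)) (sq_nonneg (r - 37 / 20))),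
    mul_nonneg (sq_nonneg (r - 9 / 20)) (sq_nonneg (r - 33 / 20)),
    mul_nonneg (pow_nonneg hr 1) (mul_nonneg (sq_nonneg (r - 9 / 20)) (sq_nonneg (r - 33 / 20))),
    mul_nonneg (pow_nonneg hr 2) (mul_nonneg (sq_nonneg (r - 9 / 20)) (sq_nonneg (r - 33 / 20))),
    mul_nonneg (pow_nonneg hr 3) (mul_nonneg (sq_nonneg (r - 9 / 20)) (sq_nonneg (r - 33 / 20))),
    mul_nonneg (sq_nonneg (r - 9 / 20)) (sq_nonneg (r - 37 / 20))]

theorem one_high_3 {r : ℝ} (hr : 0 ≤ r) :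
    0 <
      598400 - 1573504 * r + 241312 * r ^ 2 + 1562080 * r ^ 3 + 62080 * r ^ 4 - 458768 * r ^ 5 - 130288 * r ^ 6
        + 26752 * r ^ 7 + 23936 * r ^ 8 + 4400 * r ^ 9 := by
  linarith [
    sq_nonneg (r - 9 / 10),
    sq_nonneg (r - 5 / 4),
    mul_nonneg (pow_nonneg hr 3) (mul_nonneg (sq_nonneg (r - 9 / 20)) (sq_nonneg (r - 37 / 20))),
    mul_nonneg (pow_nonneg hr 4) (mul_nonneg (sq_nonneg (r - 9 / 20)) (sq_nonneg (r - 37 / 20))),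
    mul_nonneg (pow_nonneg hr 5) (mul_nonneg (sq_nonneg (r - 9 / 20)) (sq_nonneg (r - 37 / 20))),
    mul_nonneg (pow_nonneg hr 2) (mul_nonneg (sq_nonneg (r - 9 / 20)) (sq_nonneg (r - 2))),
    mul_nonneg (pow_nonneg hr 3) (mul_nonneg (sq_nonneg (r - 9 / 20)) (sq_nonneg (r - 2))),
    mul_nonneg (pow_nonneg hr 1) (mul_nonneg (sq_nonneg (r - 11 / 20)) (sq_nonneg (r - 33 / 20))),
    mul_nonneg (sq_nonneg (r - 11 / 20)) (sq_nonneg (r - 37 / 20)),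
    mul_nonneg (pow_nonneg hr 1) (mul_nonneg (sq_nonneg (r - 11 / 20)) (sq_nonneg (r - 37 / 20)))]

theorem diag_low_0 {r : ℝ} (hr : 0 ≤ r) :
    0 <
      224400 + 448800 * r + 519860 * r ^ 2 + 750208 * r ^ 3 + 559920 * r ^ 4 + 318584 * r ^ 5 + 208384 * r ^ 6
        + 114048 * r ^ 7 + 35200 * r ^ 8 + 4400 * r ^ 9 := by
  linarith [
    pow_nonneg hr 1,
    pow_nonneg hr 2,
    pow_nonneg hr 3,
    pow_nonneg hr 4,
    pow_nonneg hr 5,
    pow_nonneg hr 6,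
    pow_nonneg hr 7,
    pow_nonneg hr 8,
    pow_nonneg hr 9]

theorem diag_low_1 {r : ℝ} (hr : 0 ≤ r) :
    0 <
      224400 + 374000 * r + 370260 * r ^ 2 + 601356 * r ^ 3 + 403968 * r ^ 4 + 207288 * r ^ 5 + 163234 * r ^ 6
        + 102784 * r ^ 7 + 33792 * r ^ 8 + 4400 * r ^ 9 := by
  linarith [
    pow_nonneg hr 1,
    pow_nonneg hr 2,
    pow_nonneg hr 3,
    pow_nonneg hr 4,
    pow_nonneg hr 5,
    pow_nonneg hr 6,
    pow_nonneg hr 7,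
    pow_nonneg hr 8,
    pow_nonneg hr 9]

theorem diag_low_2 {r : ℝ} (hr : 0 ≤ r) :
    0 <
      719950 / 3 + 787484 / 3 * r + 402145 / 2 * r ^ 2 + 1393480 / 3 * r ^ 3 + 785354 / 3 * r ^ 4
        + 100701 * r ^ 5 + 357068 / 3 * r ^ 6 + 274912 / 3 * r ^ 7 + 32384 * r ^ 8 + 4400 * r ^ 9 := by
  linarith [
    pow_nonneg hr 1,
    pow_nonneg hr 2,
    pow_nonneg hr 3,
    pow_nonneg hr 4,
    pow_nonneg hr 5,
    pow_nonneg hr 6,
    pow_nonneg hr 7,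
    pow_nonneg hr 8,
    pow_nonneg hr 9]

theorem diag_low_3 {r : ℝ} (hr : 0 ≤ r) :
    0 <
      271150 + 114284 * r + 160339 / 2 * r ^ 2 + 399764 * r ^ 3 + 146474 * r ^ 4 - 1177 * r ^ 5
        + 75750 * r ^ 6 + 80608 * r ^ 7 + 30976 * r ^ 8 + 4400 * r ^ 9 := by
  linarith [
    pow_nonneg hr 1,
    pow_nonneg hr 2,
    pow_nonneg hr 3,
    pow_nonneg hr 4,
    pow_nonneg hr 6,
    pow_nonneg hr 7,
    pow_nonneg hr 8,
    pow_nonneg hr 9,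
    mul_nonneg (pow_nonneg hr 4) (sq_nonneg (r - 3 / 10))]

theorem diag_low_4 {r : ℝ} (hr : 0 ≤ r) :
    0 <
      317900 - 104568 * r + 26451 * r ^ 2 + 454208 * r ^ 3 + 71140 * r ^ 4 - 98346 * r ^ 5 + 33416 * r ^ 6
        + 69696 * r ^ 7 + 29568 * r ^ 8 + 4400 * r ^ 9 := by
  linarith [
    pow_nonneg hr 3,
    pow_nonneg hr 4,
    sq_nonneg (r - 3 / 10),
    mul_nonneg (pow_nonneg hr 1) (sq_nonneg (r - 3 / 10)),
    mul_nonneg (pow_nonneg hr 4) (sq_nonneg (r - 9 / 20)),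
    mul_nonneg (pow_nonneg hr 5) (sq_nonneg (r - 9 / 20)),
    mul_nonneg (pow_nonneg hr 6) (sq_nonneg (r - 9 / 20)),
    mul_nonneg (pow_nonneg hr 7) (sq_nonneg (r - 9 / 20)),
    mul_nonneg (pow_nonneg hr 4) (sq_nonneg (r - 11 / 20))]

theorem diag_high_0 {r : ℝ} (hr : 0 ≤ r) :
    0 <
      317900 - 104568 * r + 26451 * r ^ 2 + 454208 * r ^ 3 + 71140 * r ^ 4 - 98346 * r ^ 5 + 33416 * r ^ 6
        + 69696 * r ^ 7 + 29568 * r ^ 8 + 4400 * r ^ 9 := by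
  linarith [
    pow_nonneg hr 3,
    pow_nonneg hr 4,
    sq_nonneg (r - 3 / 10),
    mul_nonneg (pow_nonneg hr 1) (sq_nonneg (r - 3 / 10)),
    mul_nonneg (pow_nonneg hr 4) (sq_nonneg (r - 9 / 20)),
    mul_nonneg (pow_nonneg hr 5) (sq_nonneg (r - 9 / 20)),
    mul_nonneg (pow_nonneg hr 6) (sq_nonneg (r - 9 / 20)),
    mul_nonneg (pow_nonneg hr 7) (sq_nonneg (r - 9 / 20)),
    mul_nonneg (pow_nonneg hr 4) (sq_nonneg (r - 11 / 20))]

theorem diag_high_1 {r : ℝ} (hr : 0 ≤ r) :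
    0 <
      364650 - 323420 * r - 54535 / 2 * r ^ 2 + 508652 * r ^ 3 - 4194 * r ^ 4 - 195515 * r ^ 5 - 8918 * r ^ 6
        + 58784 * r ^ 7 + 28160 * r ^ 8 + 4400 * r ^ 9 := by
  linarith [
    sq_nonneg (r - 11 / 20),
    mul_nonneg (pow_nonneg hr 1) (sq_nonneg (r - 11 / 20)),
    sq_nonneg (r - 3 / 5),
    mul_nonneg (pow_nonneg hr 4) (sq_nonneg (r - 9 / 10)),
    mul_nonneg (pow_nonneg hr 5) (sq_nonneg (r - 9 / 10)),
    mul_nonneg (pow_nonneg hr 6) (sq_nonneg (r - 9 / 10)),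
    mul_nonneg (pow_nonneg hr 7) (sq_nonneg (r - 9 / 10)),
    mul_nonneg (pow_nonneg hr 3) (sq_nonneg (r - 5 / 4)),
    mul_nonneg (pow_nonneg hr 4) (sq_nonneg (r - 5 / 4))]

theorem diag_high_2 {r : ℝ} (hr : 0 ≤ r) :
    0 <
      1280950 / 3 - 1838740 / 3 * r - 27603 / 2 * r ^ 2 + 2046808 / 3 * r ^ 3 - 118654 / 3 * r ^ 4
        - 287975 * r ^ 5 - 150940 / 3 * r ^ 6 + 143968 / 3 * r ^ 7 + 26752 * r ^ 8 + 4400 * r ^ 9 := by
  linarith [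
    mul_nonneg (pow_nonneg hr 1) (sq_nonneg (r - 7 / 10)),
    sq_nonneg (r - 9 / 10),
    mul_nonneg (pow_nonneg hr 1) (sq_nonneg (r - 9 / 10)),
    mul_nonneg (pow_nonneg hr 4) (sq_nonneg (r - 5 / 4)),
    mul_nonneg (pow_nonneg hr 5) (sq_nonneg (r - 5 / 4)),
    mul_nonneg (pow_nonneg hr 6) (sq_nonneg (r - 5 / 4)),
    mul_nonneg (pow_nonneg hr 7) (sq_nonneg (r - 5 / 4)),
    mul_nonneg (pow_nonneg hr 3) (sq_nonneg (r - 3 / 2)),
    mul_nonneg (pow_nonneg hr 4) (sq_nonneg (r - 3 / 2))]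

theorem diag_high_3 {r : ℝ} (hr : 0 ≤ r) :
    0 <
      504900 - 1006984 * r + 85749 * r ^ 2 + 1022100 * r ^ 3 - 21828 * r ^ 4 - 375726 * r ^ 5 - 90770 * r ^ 6
        + 37312 * r ^ 7 + 25344 * r ^ 8 + 4400 * r ^ 9 := by
  linarith [
    sq_nonneg (r - 9 / 10),
    sq_nonneg (r - 5 / 4),
    mul_nonneg (pow_nonneg hr 2) (mul_nonneg (sq_nonneg (r - 3 / 10)) (sq_nonneg (r - 33 / 20))),
    mul_nonneg (pow_nonneg hr 3) (mul_nonneg (sq_nonneg (r - 3 / 10)) (sq_nonneg (r - 33 / 20))),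
    mul_nonneg (pow_nonneg hr 4) (mul_nonneg (sq_nonneg (r - 3 / 10)) (sq_nonneg (r - 33 / 20))),
    mul_nonneg (pow_nonneg hr 5) (mul_nonneg (sq_nonneg (r - 3 / 10)) (sq_nonneg (r - 33 / 20))),
    mul_nonneg (pow_nonneg hr 2) (mul_nonneg (sq_nonneg (r - 9 / 20)) (sq_nonneg (r - 3 / 2))),
    mul_nonneg (sq_nonneg (r - 9 / 20)) (sq_nonneg (r - 33 / 20)),
    mul_nonneg (pow_nonneg hr 1) (mul_nonneg (sq_nonneg (r - 9 / 20)) (sq_nonneg (r - 33 / 20))),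
    mul_nonneg (pow_nonneg hr 2) (mul_nonneg (sq_nonneg (r - 9 / 20)) (sq_nonneg (r - 33 / 20)))]

theorem diag_high_4 {r : ℝ} (hr : 0 ≤ r) :
    0 <
      598400 - 1573504 * r + 241312 * r ^ 2 + 1562080 * r ^ 3 + 62080 * r ^ 4 - 458768 * r ^ 5 - 130288 * r ^ 6
        + 26752 * r ^ 7 + 23936 * r ^ 8 + 4400 * r ^ 9 := by
  linarith [
    sq_nonneg (r - 9 / 10),
    sq_nonneg (r - 5 / 4),
    mul_nonneg (pow_nonneg hr 3) (mul_nonneg (sq_nonneg (r - 9 / 20)) (sq_nonneg (r - 37 / 20))),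
    mul_nonneg (pow_nonneg hr 4) (mul_nonneg (sq_nonneg (r - 9 / 20)) (sq_nonneg (r - 37 / 20))),
    mul_nonneg (pow_nonneg hr 5) (mul_nonneg (sq_nonneg (r - 9 / 20)) (sq_nonneg (r - 37 / 20))),
    mul_nonneg (pow_nonneg hr 2) (mul_nonneg (sq_nonneg (r - 9 / 20)) (sq_nonneg (r - 2))),
    mul_nonneg (pow_nonneg hr 3) (mul_nonneg (sq_nonneg (r - 9 / 20)) (sq_nonneg (r - 2))),
    mul_nonneg (pow_nonneg hr 1) (mul_nonneg (sq_nonneg (r - 11 / 20)) (sq_nonneg (r - 33 / 20))),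
    mul_nonneg (sq_nonneg (r - 11 / 20)) (sq_nonneg (r - 37 / 20)),
    mul_nonneg (pow_nonneg hr 1) (mul_nonneg (sq_nonneg (r - 11 / 20)) (sq_nonneg (r - 37 / 20)))]

theorem sym_edge_one {r c : ℝ} (hr : 0 ≤ r) (hc : 0 ≤ c) (hc1 : c ≤ 1) :
    0 < symS r (c + 1) c := by
  unfold symS
  rcases lt_or_ge c (1 / 2) with h | h
  · linarith [
      mul_pos (pow_pos (show 0 < 1 - 2 * c by linarith) 3)
        (one_low_0 hr),
      mul_nonneg (mul_nonneg (pow_nonneg (show 0 ≤ 2 * c by linarith) 1) (pow_nonneg (show 0 ≤ 1 - 2 * c by linarith) 2))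
        (one_low_1 hr).le,
      mul_nonneg (mul_nonneg (pow_nonneg (show 0 ≤ 2 * c by linarith) 2) (pow_nonneg (show 0 ≤ 1 - 2 * c by linarith) 1))
        (one_low_2 hr).le,
      mul_nonneg (pow_nonneg (show 0 ≤ 2 * c by linarith) 3)
        (one_low_3 hr).le]
  rcases le_total c (3 / 4) with h2 | h2
  · linarith [
      mul_pos (pow_pos (show 0 < 2 - 2 * c by linarith) 3)
        (one_high_0 hr),
      mul_nonneg (mul_nonneg (pow_nonneg (show 0 ≤ 2 * c - 1 by linarith) 1) (pow_nonneg (show 0 ≤ 2 - 2 * c by linarith) 2))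
        (one_high_1 hr).le,
      mul_nonneg (mul_nonneg (pow_nonneg (show 0 ≤ 2 * c - 1 by linarith) 2) (pow_nonneg (show 0 ≤ 2 - 2 * c by linarith) 1))
        (one_high_2 hr).le,
      mul_nonneg (pow_nonneg (show 0 ≤ 2 * c - 1 by linarith) 3)
        (one_high_3 hr).le]
  · linarith [
      mul_nonneg (pow_nonneg (show 0 ≤ 2 - 2 * c by linarith) 3)
        (one_high_0 hr).le,
      mul_nonneg (mul_nonneg (pow_nonneg (show 0 ≤ 2 * c - 1 by linarith) 1) (pow_nonneg (show 0 ≤ 2 - 2 * c by linarith) 2))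
        (one_high_1 hr).le,
      mul_nonneg (mul_nonneg (pow_nonneg (show 0 ≤ 2 * c - 1 by linarith) 2) (pow_nonneg (show 0 ≤ 2 - 2 * c by linarith) 1))
        (one_high_2 hr).le,
      mul_pos (pow_pos (show 0 < 2 * c - 1 by linarith) 3)
        (one_high_3 hr)]

theorem sym_edge_diag {r c : ℝ} (hr : 0 ≤ r) (hc : 0 ≤ c) (hc1 : c ≤ 1) :
    0 < symS r (2 * c) (c ^ 2) := by
  unfold symS
  rcases lt_or_ge c (1 / 2) with h | h
  · linarith [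
      mul_pos (pow_pos (show 0 < 1 - 2 * c by linarith) 4)
        (diag_low_0 hr),
      mul_nonneg (mul_nonneg (pow_nonneg (show 0 ≤ 2 * c by linarith) 1) (pow_nonneg (show 0 ≤ 1 - 2 * c by linarith) 3))
        (diag_low_1 hr).le,
      mul_nonneg (mul_nonneg (pow_nonneg (show 0 ≤ 2 * c by linarith) 2) (pow_nonneg (show 0 ≤ 1 - 2 * c by linarith) 2))
        (diag_low_2 hr).le,
      mul_nonneg (mul_nonneg (pow_nonneg (show 0 ≤ 2 * c by linarith) 3) (pow_nonneg (show 0 ≤ 1 - 2 * c by linarith) 1))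
        (diag_low_3 hr).le,
      mul_nonneg (pow_nonneg (show 0 ≤ 2 * c by linarith) 4)
        (diag_low_4 hr).le]
  rcases le_total c (3 / 4) with h2 | h2
  · linarith [
      mul_pos (pow_pos (show 0 < 2 - 2 * c by linarith) 4)
        (diag_high_0 hr),
      mul_nonneg (mul_nonneg (pow_nonneg (show 0 ≤ 2 * c - 1 by linarith) 1) (pow_nonneg (show 0 ≤ 2 - 2 * c by linarith) 3))
        (diag_high_1 hr).le,
      mul_nonneg (mul_nonneg (pow_nonneg (show 0 ≤ 2 * c - 1 by linarith) 2) (pow_nonneg (show 0 ≤ 2 - 2 * c by linarith) 2))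
        (diag_high_2 hr).le,
      mul_nonneg (mul_nonneg (pow_nonneg (show 0 ≤ 2 * c - 1 by linarith) 3) (pow_nonneg (show 0 ≤ 2 - 2 * c by linarith) 1))
        (diag_high_3 hr).le,
      mul_nonneg (pow_nonneg (show 0 ≤ 2 * c - 1 by linarith) 4)
        (diag_high_4 hr).le]
  · linarith [
      mul_nonneg (pow_nonneg (show 0 ≤ 2 - 2 * c by linarith) 4)
        (diag_high_0 hr).le,
      mul_nonneg (mul_nonneg (pow_nonneg (show 0 ≤ 2 * c - 1 by linarith) 1) (pow_nonneg (show 0 ≤ 2 - 2 * c by linarith) 3))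
        (diag_high_1 hr).le,
      mul_nonneg (mul_nonneg (pow_nonneg (show 0 ≤ 2 * c - 1 by linarith) 2) (pow_nonneg (show 0 ≤ 2 - 2 * c by linarith) 2))
        (diag_high_2 hr).le,
      mul_nonneg (mul_nonneg (pow_nonneg (show 0 ≤ 2 * c - 1 by linarith) 3) (pow_nonneg (show 0 ≤ 2 - 2 * c by linarith) 1))
        (diag_high_3 hr).le,
      mul_pos (pow_pos (show 0 < 2 * c - 1 by linarith) 4)
        (diag_high_4 hr)]

/-- The constant coefficient on the edge `d = 1`. -/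
def edge0 (c : ℝ) : ℝ :=
  844758 + 6728096 * c + 16481496 * c ^ 2 + 23997920 * c ^ 3 + 28400144 * c ^ 4 + 32202068 * c ^ 5
    + 45533024 * c ^ 6 + 59163616 * c ^ 7 + 49086618 * c ^ 8 + 24113340 * c ^ 9 + 6872696 * c ^ 10
    + 1058432 * c ^ 11 + 69168 * c ^ 12 + 176 * c ^ 13

/-- The mixed coefficient on the edge `d = 1`. -/
def edge1 (c : ℝ) : ℝ :=
  -4480250 - 19981132 * c - 29369600 * c ^ 2 - 21699180 * c ^ 3 - 8350548 * c ^ 4 + 4365012 * c ^ 5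
    - 643520 * c ^ 6 + 1363204 * c ^ 7 + 26442174 * c ^ 8 + 32278408 * c ^ 9 + 15999120 * c ^ 10
    + 3717272 * c ^ 11 + 354112 * c ^ 12 + 4928 * c ^ 13

/-- The coefficient of `v ^ 2` on the edge `d = 1`. -/
def edge2 (c : ℝ) : ℝ :=
  12309972 + 63396856 * c + 152849592 * c ^ 2 + 246657960 * c ^ 3 + 291651160 * c ^ 4 + 279725880 * c ^ 5
    + 254726472 * c ^ 6 + 195613312 * c ^ 7 + 113400564 * c ^ 8 + 60798192 * c ^ 9 + 28761408 * c ^ 10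
    + 8482200 * c ^ 11 + 1164768 * c ^ 12 + 44000 * c ^ 13

/-- The coefficient of `v ^ 3` on the edge `d = 1`. -/
def edge3 (c : ℝ) : ℝ :=
  23821876 + 148439228 * c + 425593804 * c ^ 2 + 763455060 * c ^ 3 + 993306868 * c ^ 4 + 1032397436 * c ^ 5
    + 881809140 * c ^ 6 + 589746524 * c ^ 7 + 292577128 * c ^ 8 + 105766872 * c ^ 9 + 26309168 * c ^ 10
    + 3772032 * c ^ 11 + 207680 * c ^ 12

/-- The coefficient of `v ^ 4` on the edge `d = 1`. -/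
def edge4 (c : ℝ) : ℝ :=
  35161682 + 229314592 * c + 687806690 * c ^ 2 + 1288195096 * c ^ 3 + 1714711358 * c ^ 4 + 1710645536 * c ^ 5
    + 1279984706 * c ^ 6 + 697580572 * c ^ 7 + 265572660 * c ^ 8 + 66696164 * c ^ 9 + 9816048 * c ^ 10
    + 615120 * c ^ 11

/-- The coefficient of `v ^ 5` on the edge `d = 1`. -/
def edge5 (c : ℝ) : ℝ :=
  40042482 + 261081450 * c + 782356968 * c ^ 2 + 1435063392 * c ^ 3 + 1789934654 * c ^ 4 + 1574381502 * c ^ 5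
    + 974618280 * c ^ 6 + 412944200 * c ^ 7 + 113274768 * c ^ 8 + 17994240 * c ^ 9 + 1237632 * c ^ 10

/-- The coefficient of `v ^ 6` on the edge `d = 1`. -/
def edge6 (c : ℝ) : ℝ :=
  34887912 + 220835888 * c + 629444792 * c ^ 2 + 1061625936 * c ^ 3 + 1164476888 * c ^ 4 + 855942032 * c ^ 5
    + 418003656 * c ^ 6 + 129639216 * c ^ 7 + 22989120 * c ^ 8 + 1759296 * c ^ 9

/-- The coefficient of `v ^ 7` on the edge `d = 1`. -/
def edge7 (c : ℝ) : ℝ :=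
  22636568 + 134215688 * c + 348152368 * c ^ 2 + 515751248 * c ^ 3 + 476200760 * c ^ 4 + 279546280 * c ^ 5
    + 101366784 * c ^ 6 + 20638464 * c ^ 7 + 1795200 * c ^ 8

/-- The coefficient of `v ^ 8` on the edge `d = 1`. -/
def edge8 (c : ℝ) : ℝ :=
  10506060 + 56526388 * c + 129167928 * c ^ 2 + 162409512 * c ^ 3 + 121206028 * c ^ 4 + 53571732 * c ^ 5
    + 12939696 * c ^ 6 + 1312080 * c ^ 7

/-- The coefficient of `v ^ 9` on the edge `d = 1`. -/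
def edge9 (c : ℝ) : ℝ :=
  3337288 + 15931424 * c + 31256048 * c ^ 2 + 32224800 * c ^ 3 + 18393032 * c ^ 4 + 5502464 * c ^ 5
    + 672320 * c ^ 6

/-- The coefficient of `v ^ 10` on the edge `d = 1`. -/
def edge10 (c : ℝ) : ℝ :=
  686048 + 2857184 * c + 4685120 * c ^ 2 + 3772736 * c ^ 3 + 1488608 * c ^ 4 + 229856 * c ^ 5

/-- The coefficient of `v ^ 11` on the edge `d = 1`. -/
def edge11 (c : ℝ) : ℝ :=
  82368 + 294272 * c + 388608 * c ^ 2 + 223872 * c ^ 3 + 47168 * c ^ 4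

/-- The coefficient of `v ^ 12` on the edge `d = 1`. -/
def edge12 (c : ℝ) : ℝ :=
  4400 + 13200 * c + 13200 * c ^ 2 + 4400 * c ^ 3

/-- The cofactor of `(r - 2 t) ^ 2` on the edge of equal cosines. -/
def diagJ (r t : ℝ) : ℝ :=
  (897600 * t + 2692800 * t ^ 2 + 2872320 * t ^ 3 + 3608064 * t ^ 4 + 2634752 * t ^ 5 - 2907648 * t ^ 6
      - 1881600 * t ^ 7 + 1622016 * t ^ 8 + 540672 * t ^ 9)
  + r * (224400 + 2468400 * t + 6238320 * t ^ 2 + 8679504 * t ^ 3 + 9850880 * t ^ 4 + 2361856 * t ^ 5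
      - 7696896 * t ^ 6 - 2141184 * t ^ 7 + 3784704 * t ^ 8 + 1081344 * t ^ 9)
  + r ^ 2 * (448800 + 2827440 * t + 7777488 * t ^ 2 + 12154272 * t ^ 3 + 8500864 * t ^ 4 - 3274368 * t ^ 5
      - 6908160 * t ^ 6 + 827136 * t ^ 7 + 3514368 * t ^ 8 + 811008 * t ^ 9)
  + r ^ 3 * (519860 + 3363612 * t + 8289052 * t ^ 2 + 8430260 * t ^ 3 + 453888 * t ^ 4 - 5055488 * t ^ 5
      - 1572864 * t ^ 6 + 2303232 * t ^ 7 + 1622016 * t ^ 8 + 270336 * t ^ 9)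
  + r ^ 4 * (750208 + 3299488 * t + 4517504 * t ^ 2 + 487936 * t ^ 3 - 3510176 * t ^ 4 - 1750720 * t ^ 5
      + 1242912 * t ^ 6 + 1301664 * t ^ 7 + 371712 * t ^ 8 + 33792 * t ^ 9)
  + r ^ 5 * (559920 + 1706480 * t + 1029504 * t ^ 2 - 1364640 * t ^ 3 - 1402192 * t ^ 4 + 471216 * t ^ 5
      + 896160 * t ^ 6 + 304128 * t ^ 7 + 33792 * t ^ 8)
  + r ^ 6 * (318584 + 898920 * t + 822048 * t ^ 2 + 393632 * t ^ 3 + 484392 * t ^ 4 + 518328 * t ^ 5 + 211200 * t ^ 6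
      + 25344 * t ^ 7)
  + r ^ 7 * (208384 + 720144 * t + 994608 * t ^ 2 + 763696 * t ^ 3 + 399120 * t ^ 4 + 135168 * t ^ 5 + 16896 * t ^ 6)
  + r ^ 8 * (114048 + 392832 * t + 504768 * t ^ 2 + 297792 * t ^ 3 + 82368 * t ^ 4 + 10560 * t ^ 5)
  + r ^ 9 * (35200 + 111936 * t + 124608 * t ^ 2 + 54208 * t ^ 3 + 6336 * t ^ 4)
  + r ^ 10 * (4400 + 13200 * t + 13200 * t ^ 2 + 4400 * t ^ 3)

end Vale.Agent.P219.CH.Nine
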