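import Vale.Agent.P219.Nine.Weight
import Vale.Agent.P219.Gen.Law

/-!
# P219, dimension nine: the certificate
-/

noncomputable section

open MeasureTheory Set

namespace Vale.Agent.P219.CH.Nine

/-- The integrand of the value is a polynomial. -/
theorem integral_value :
    ∫ c in (0 : ℝ)..1, -(aCoef c / 2200) * (1 - c ^ 2) ^ 3 = 104 / 35 := by
  have e : ∀ c ∈ uIcc (0 : ℝ) 1, -(aCoef c / 2200) * (1 - c ^ 2) ^ 3 =
      112200 / 2200 * c ^ 2 - 314160 / 2200 * c ^ 4 + 271488 / 2200 * c ^ 5 - 283160 / 2200 * c ^ 6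
        - 357504 / 2200 * c ^ 7 + 1392192 / 2200 * c ^ 8 - 511360 / 2200 * c ^ 9 - 882816 / 2200 * c ^ 10
        + 640704 / 2200 * c ^ 11 - 67584 / 2200 * c ^ 13 := by
    intro c hc
    rw [uIcc_of_le zero_le_one] at hc
    have h : 0 < 1 + c := by linarith [hc.1]
    unfold aCoef
    field_simp
    ring
  rw [intervalIntegral.integral_congr e]
  simp (disch := exact Continuous.intervalIntegrable (by fun_prop) _ _) only
    [intervalIntegral.integral_add, intervalIntegral.integral_sub,
      intervalIntegral.integral_const_mul, integral_pow]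
  norm_num

theorem value_nine :
    Gen.cmean 9 (fun c => -(aCoef c / 2200)) = (153 / 4) / ((9 : ℕ) : ℝ) - 1 := by
  have hm : Measurable fun c => -(aCoef c / 2200) := by unfold aCoef; fun_prop
  have hcont : ContinuousOn (fun c => -(aCoef c / 2200)) (Icc 0 1) := by
    unfold aCoef
    refine ((ContinuousOn.div (by fun_prop) (by fun_prop) fun c hc => ?_).div_const _).neg
    have : 0 < 1 + c := by linarith [hc.1]
    positivity
  obtain ⟨B, hB⟩ := isCompact_Icc.bddAbove_image hcont
  have h := Gen.Law.cmean_eq 3 hm hcont (B := B) fun c hc =>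
    ⟨neg_nonneg.2 (div_nonpos_of_nonpos_of_nonneg (aCoef_nonpos hc.1 hc.2) (by norm_num)),
      hB ⟨c, hc, rfl⟩⟩
  have hK : (∫ c in (-1 : ℝ)..1, (1 - c ^ 2) ^ 3) = 32 / 35 := by
    have e : ∀ c ∈ uIcc (-1 : ℝ) 1, (1 - c ^ 2) ^ 3 =
        1 * c ^ 0 - 3 * c ^ 2 + 3 * c ^ 4 - 1 * c ^ 6 :=
      fun c _ => by ring
    rw [intervalIntegral.integral_congr e]
    simp (disch := exact Continuous.intervalIntegrable (by fun_prop) _ _) only
      [intervalIntegral.integral_add, intervalIntegral.integral_sub,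
        intervalIntegral.integral_const_mul, integral_pow]
    norm_num
  rw [integral_value, hK] at h
  change Gen.cmean 9 (fun c => -(aCoef c / 2200)) * (32 / 35) = 104 / 35 at h
  push_cast
  linarith

/-- The certificate of the sharp constant in dimension nine. -/
theorem cert_nine : Gen.Cert 9 (fun c => aCoef c / 2200) (153 / 4) where
  b_nonneg := by norm_num
  measurable_a := by unfold aCoef; fun_prop
  a_nonpos := fun c hc => div_nonpos_of_nonpos_of_nonneg (aCoef_nonpos hc.1 hc.2) (by norm_num)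
  a_bounded := ⟨2000, fun c hc => by
    have h1 : 1 ≤ (1 + c) ^ 3 := one_le_pow₀ (by linarith [hc.1])
    have hp : ∀ k : ℕ, c ^ k ≤ 1 ∧ 0 ≤ c ^ k := fun k =>
      ⟨pow_le_one₀ hc.1 hc.2, pow_nonneg hc.1 k⟩
    rw [le_div_iff₀ (by norm_num : (0 : ℝ) < 2200), aCoef, le_div_iff₀ (by linarith)]
    nlinarith [hp 2, hp 3, hp 4, hp 5, hp 6, hp 7, hp 8, hp 9, hp 10]⟩
  value := value_nine
  weight := fun _ _ hε hT => weight_cert hε hT

end Vale.Agent.P219.CH.Nine
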