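import Vale.Agent.P219.Nine.Cert
import Vale.Agent.P219.Eight.Weight

/-!
# P219, dimension nine: the regularised weight

The distance is replaced by the square root of `Eight.rho2 η p`.
-/

noncomputable section

open Set Filter Topology

namespace Vale.Agent.P219.CH.Nine

open Eight (rho2 rho2_pos rho2_of_gt contDiff_rho2)

/-- The regularised distance as a function of the half squared distance. -/
def dist' (η p : ℝ) : ℝ := Real.sqrt (rho2 η p)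

theorem dist'_pos {η : ℝ} (hη : η ≠ 0) (p : ℝ) : 0 < dist' η p :=
  Real.sqrt_pos.2 (rho2_pos hη p)

theorem contDiff_dist' {η : ℝ} (hη : η ≠ 0) : ContDiff ℝ 1 (dist' η) :=
  (contDiff_rho2 η).sqrt fun p => (rho2_pos hη p).ne'

/-- The weight. -/
def weight (η : ℝ) (z : ℝ × ℝ) : ℝ :=
  (wA (dist' η z.1) / dist' η z.1 ^ 5 - z.2 ^ 2 * wB (dist' η z.1) / dist' η z.1 ^ 7) /
    (2 + dist' η z.1) ^ 3 / 2200

theorem contDiff_weight {η : ℝ} (hη : η ≠ 0) : ContDiff ℝ 1 (weight η) := by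
  have hρ : ContDiff ℝ 1 fun z : ℝ × ℝ => dist' η z.1 := (contDiff_dist' hη).comp contDiff_fst
  have hA : ContDiff ℝ 1 wA := by unfold wA; fun_prop
  have hB : ContDiff ℝ 1 wB := by unfold wB; fun_prop
  unfold weight
  exact ((((hA.comp hρ).div (hρ.pow 5) fun z => (pow_pos (dist'_pos hη _) 5).ne').sub
    (((contDiff_snd.pow 2).mul (hB.comp hρ)).div (hρ.pow 7)
      fun z => (pow_pos (dist'_pos hη _) 7).ne')).div
    ((contDiff_const.add hρ).pow 3)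
      fun z => (pow_pos (add_pos two_pos (dist'_pos hη _)) 3).ne').div_const _

theorem wB_lt {R : ℝ} (hR : 0 < R) : wB R < wA R := by
  unfold wA wB
  linarith [mul_nonneg hR.le (sq_nonneg (R - 3 / 5)), sq_nonneg (R - 3 / 5),
    mul_nonneg (pow_nonneg hR.le 2) (sq_nonneg (R - 3 / 5)),
    mul_nonneg (pow_nonneg hR.le 3) (sq_nonneg (R - 3 / 5)),
    mul_nonneg (pow_nonneg hR.le 4) (sq_nonneg (R - 3 / 5)), pow_pos hR 6, pow_pos hR 5]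

theorem weight_pos {η : ℝ} (hη : η ≠ 0) {p q : ℝ} (hp : 0 ≤ p) (hq : q ^ 2 ≤ 2 * p) :
    0 < weight η (p, q) := by
  have h2 : 0 < η ^ 2 := by positivity
  obtain ⟨R, hR⟩ : ∃ R, R = dist' η p := ⟨_, rfl⟩
  have hR0 : 0 < R := hR ▸ dist'_pos hη p
  have hR2 : R ^ 2 = η ^ 2 + 2 * p := by
    rw [hR, dist', Real.sq_sqrt (rho2_pos hη p).le, rho2_of_gt hη (by linarith)]
  simp only [weight, ← hR]
  refine div_pos (div_pos ?_ (by positivity)) (by norm_num)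
  have e : wA R / R ^ 5 - q ^ 2 * wB R / R ^ 7 = (R ^ 2 * wA R - q ^ 2 * wB R) / R ^ 7 := by
    field_simp
  rw [e]
  refine div_pos ?_ (by positivity)
  have h1 : q ^ 2 * wB R ≤ R ^ 2 * wB R :=
    mul_le_mul_of_nonneg_right (by linarith) (by unfold wB; positivity)
  have h3 : 0 < R ^ 2 * (wA R - wB R) := by
    refine mul_pos (by positivity) ?_
    exact sub_pos.2 (wB_lt hR0)
  linarith

/-- The two partial derivatives of the weight for `p ≥ 0`. -/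
theorem fderiv_weight {η : ℝ} (hη : η ≠ 0) {p ρ : ℝ} (hp : 0 ≤ p) (hρ0 : 0 < ρ)
    (hρ : ρ ^ 2 = η ^ 2 + 2 * p) (q : ℝ) :
    Dir.wa (weight η) (p, q) =
      (dA ρ / ρ ^ 7 - q ^ 2 * dB ρ / ρ ^ 9) / (2 + ρ) ^ 4 / 2200 ∧
    Dir.wb (weight η) (p, q) = -2 * q * wB ρ / (ρ ^ 7 * (2 + ρ) ^ 3) / 2200 := by
  have h2 : 0 < η ^ 2 := by positivity
  have hd : HasFDerivAt (weight η) (fderiv ℝ (weight η) (p, q)) (p, q) :=
    ((contDiff_weight hη).differentiable one_ne_zero _).hasFDerivAt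
  have hdist : dist' η p = ρ := by
    rw [dist', rho2_of_gt hη (by linarith), ← hρ, Real.sqrt_sq hρ0.le]
  constructor
  · have h1 : HasDerivAt (fun t => weight η (t, q)) (Dir.wa (weight η) (p, q)) p :=
      hd.comp_hasDerivAt_of_eq p ((hasDerivAt_id p).prodMk (hasDerivAt_const p q)) rfl
    refine h1.unique ?_
    have hl : HasDerivAt (fun t : ℝ => η ^ 2 + 2 * t) 2 p := by
      simpa using ((hasDerivAt_id p).const_mul (2 : ℝ)).const_add (η ^ 2)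
    have hs : HasDerivAt (fun t : ℝ => Real.sqrt (η ^ 2 + 2 * t)) (1 / ρ) p := by
      refine (hl.sqrt (by positivity)).congr_deriv ?_
      rw [← hρ, Real.sqrt_sq hρ0.le]
      field_simp
    have hN : HasDerivAt wA (28050 + 46376 * ρ + 82182 * ρ ^ 2 + 56508 * ρ ^ 3 + 21120 * ρ ^ 4
        + 4224 * ρ ^ 5) ρ := by
      have h : HasDerivAt wA _ ρ := (((((((hasDerivAt_id ρ).const_mul 28050).const_add 18700).add
        ((hasDerivAt_pow 2 ρ).const_mul 23188)).add ((hasDerivAt_pow 3 ρ).const_mul 27394)).add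
        ((hasDerivAt_pow 4 ρ).const_mul 14127)).add ((hasDerivAt_pow 5 ρ).const_mul 4224)).add
        ((hasDerivAt_pow 6 ρ).const_mul 704)
      exact h.congr_deriv (by push_cast; ring)
    have hB : HasDerivAt wB (67872 + 52416 * ρ) ρ := by
      have h : HasDerivAt wB _ ρ :=
        ((hasDerivAt_id ρ).const_mul 67872).add ((hasDerivAt_pow 2 ρ).const_mul 26208)
      exact h.congr_deriv (by push_cast; ring)
    have hG : HasDerivAt (fun x => (wA x / x ^ 5 - q ^ 2 * wB x / x ^ 7) / (2 + x) ^ 3 / 2200)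
        _ ρ := (((hN.div (hasDerivAt_pow 5 ρ) (by positivity)).sub
          ((hB.const_mul (q ^ 2)).div (hasDerivAt_pow 7 ρ) (by positivity))).div
          (((hasDerivAt_id ρ).const_add 2).pow 3)
            (pow_ne_zero 3 (add_pos two_pos hρ0).ne')).div_const 2200
    refine ((hG.comp_of_eq p hs (by rw [← hρ, Real.sqrt_sq hρ0.le])).congr_deriv
      ?_).congr_of_eventuallyEq ?_
    · simp only [Pi.pow_apply, Pi.sub_apply, Pi.div_apply, id_eq]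
      push_cast
      unfold dA dB wA wB
      field_simp
      ring
    · filter_upwards [lt_mem_nhds (show -(η ^ 2 / 4) < p by linarith)] with t ht
      simp only [weight, dist', rho2_of_gt hη ht.le, Function.comp]
  · have h1 : HasDerivAt (fun t => weight η (p, t)) (Dir.wb (weight η) (p, q)) q :=
      hd.comp_hasDerivAt_of_eq q ((hasDerivAt_const q p).prodMk (hasDerivAt_id q)) rfl
    refine h1.unique ?_
    simp only [weight, hdist]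
    have hf : HasDerivAt
        (fun t : ℝ => (wA ρ / ρ ^ 5 - t ^ 2 * wB ρ / ρ ^ 7) / (2 + ρ) ^ 3 / 2200)
        _ q := (((((hasDerivAt_pow 2 q).mul_const (wB ρ)).div_const (ρ ^ 7)).const_sub
          (wA ρ / ρ ^ 5)).div_const ((2 + ρ) ^ 3)).div_const 2200
    refine hf.congr_deriv ?_
    push_cast
    field_simp

/-- The gain of the regularisation in the first two terms. -/
theorem gain {ρ c d e : ℝ} (hρ : 0 ≤ ρ) (hc : |c| ≤ 1) (hd : |d| ≤ 1) (he0 : 0 ≤ e)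
    (he : e ≤ |d|) :
    0 ≤ 8 * (2 + ρ) * c ^ 2 * wB ρ
        + (1 - d ^ 2) * (-dA ρ + 2 * c ^ 2 * dB ρ + 2 * c ^ 2 * wB ρ * (2 + ρ)) ∧
      (ρ ≤ 1 / 2 → 8 * ρ * e * (2 + ρ) * c ^ 2 * wB ρ ≤ 8 * (2 + ρ) * c ^ 2 * wB ρ
        + (1 - d ^ 2) * (-dA ρ + 2 * c ^ 2 * dB ρ + 2 * c ^ 2 * wB ρ * (2 + ρ))) := by
  have hc2 : c ^ 2 ≤ 1 := by rw [← sq_abs]; exact pow_le_one₀ (abs_nonneg c) hc
  have hd2 : d ^ 2 ≤ 1 := by rw [← sq_abs]; exact pow_le_one₀ (abs_nonneg d) hd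
  obtain ⟨L, hL⟩ : ∃ L, L = 8 * (2 + ρ) * c ^ 2 * wB ρ := ⟨_, rfl⟩
  have hB0 : 0 ≤ wB ρ := by unfold wB; positivity
  have hL0 : 0 ≤ L := by rw [hL]; positivity
  obtain ⟨M, hM⟩ : ∃ M, M = -dA ρ + 2 * c ^ 2 * dB ρ + 2 * c ^ 2 * wB ρ * (2 + ρ) + L :=
    ⟨_, rfl⟩
  have hA : 0 ≤ -dA ρ := by
    have e : -dA ρ = 187000 + 374000 * ρ + 335478 * ρ ^ 2 + 248704 * ρ ^ 3 + 165224 * ρ ^ 4
        + 56508 * ρ ^ 5 + 11264 * ρ ^ 6 + 1408 * ρ ^ 7 := by unfold dA wA; ring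
    rw [e]
    positivity
  have p := fun k => pow_nonneg hρ k
  have e1 : -dA ρ + 2 * dB ρ + 10 * wB ρ * (2 + ρ) = 187000 + 102512 * ρ - 207498 * ρ ^ 2
      + 91456 * ρ ^ 3 + 165224 * ρ ^ 4 + 56508 * ρ ^ 5 + 11264 * ρ ^ 6 + 1408 * ρ ^ 7 := by
    unfold dA dB wA wB; ring
  have h1 : 0 ≤ -dA ρ + 2 * dB ρ + 10 * wB ρ * (2 + ρ) := by
    rw [e1]
    linarith [p 1, p 2, p 3, p 4, p 5, p 6, p 7, sq_nonneg (ρ ^ 2 - 19 / 25)]
  have hM' : c ^ 2 * (-dA ρ + 2 * dB ρ + 10 * wB ρ * (2 + ρ)) + (1 - c ^ 2) * -dA ρ = M := by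
    rw [hM, hL]; ring
  have hM0 : 0 ≤ M := hM' ▸
    add_nonneg (mul_nonneg (sq_nonneg c) h1) (mul_nonneg (sub_nonneg.2 hc2) hA)
  rw [← hL]
  have hd' : (1 - d ^ 2) * (-dA ρ + 2 * c ^ 2 * dB ρ + 2 * c ^ 2 * wB ρ * (2 + ρ)) + L =
      d ^ 2 * L + (1 - d ^ 2) * M := by rw [hM]; ring
  refine ⟨?_, fun hρ1 => ?_⟩
  · have := mul_nonneg (sq_nonneg d) hL0
    have := mul_nonneg (sub_nonneg.2 hd2) hM0
    linarith
  · have h2 : L / 12 ≤ M := by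
      have h3 : 8 * (2 + ρ) * wB ρ / 12 ≤ -dA ρ + 2 * dB ρ + 10 * wB ρ * (2 + ρ) := by
        rw [e1]
        unfold wB
        linarith [p 3, p 4, p 5, p 6, p 7, mul_le_mul_of_nonneg_left hρ1 (p 1),
          mul_le_mul_of_nonneg_left hρ1 (p 2)]
      have := mul_le_mul_of_nonneg_left h3 (sq_nonneg c)
      have := mul_nonneg (sub_nonneg.2 hc2) hA
      rw [← hM', hL]
      linarith
    have h4 : ρ * e ≤ d ^ 2 + (1 - d ^ 2) / 12 := by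
      have := mul_le_mul hρ1 he he0 (by norm_num)
      nlinarith [sq_nonneg (|d| - 3 / 11), sq_abs d]
    have := mul_le_mul_of_nonneg_left h4 hL0
    have := mul_le_mul_of_nonneg_left h2 (sub_nonneg.2 hd2)
    rw [show 8 * ρ * e * (2 + ρ) * c ^ 2 * wB ρ = L * (ρ * e) by rw [hL]; ring]
    linarith

/-- The regularised bracket at `q = r ^ 2 / ρ ^ 2` is at least its value at `q = 1`, up to a loss
that occurs only for `1 / 2 ≤ ρ`. -/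
theorem regular_bracket {ρ c d q sq : ℝ} (hρ : 0 < ρ) (hc : |c| ≤ 1) (hd : |d| ≤ 1)
    (hq0 : 0 ≤ q) (hq1 : q ≤ 1) (hsq : sq ≤ 1) :
    8 * (2 + ρ) * (wA ρ - c ^ 2 * wB ρ)
        + (1 - d ^ 2) * (dA ρ - c ^ 2 * dB ρ - 2 * c ^ 2 * wB ρ * (2 + ρ))
        - wB ρ * (2 + ρ) * (|c| * |d|) * (2 - c ^ 2 - d ^ 2)
        - 8 * ρ * max d 0 * (2 + ρ) * (wA ρ - c ^ 2 * wB ρ)
        - (if 1 / 2 ≤ ρ then 8 * ρ * (2 + ρ) * wB ρ * (1 - q) * (|c| * max d 0) else 0) ≤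
      8 * (2 + ρ) * (wA ρ - c ^ 2 * q * wB ρ)
        + (1 - d ^ 2) * (q * (dA ρ - c ^ 2 * q * dB ρ - 2 * c ^ 2 * wB ρ * (2 + ρ)))
        - wB ρ * (2 + ρ) * (|c| * |d|) * q * (2 - c ^ 2 - d ^ 2)
        - 8 * ρ * max d 0 * sq * (2 + ρ) * (wA ρ - c ^ 2 * q * wB ρ) := by
  have hc2 : c ^ 2 ≤ 1 := by rw [← sq_abs]; exact pow_le_one₀ (abs_nonneg c) hc
  have hd2 : d ^ 2 ≤ 1 := by rw [← sq_abs]; exact pow_le_one₀ (abs_nonneg d) hd
  have hx : 0 ≤ 1 - q := sub_nonneg.2 hq1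
  have hB : 0 ≤ wB ρ := by unfold wB; positivity
  obtain ⟨e, he⟩ : ∃ e, e = max d 0 := ⟨_, rfl⟩
  have he0 : 0 ≤ e := he ▸ le_max_right _ _
  have hel : e ≤ |d| := he ▸ max_le (le_abs_self d) (abs_nonneg d)
  rw [← he]
  obtain ⟨g0, g1⟩ := gain hρ.le hc hd he0 hel
  have hdB : dB ρ ≤ 0 := by unfold dB wB; linarith [sq_nonneg ρ, pow_pos hρ 3]
  have h0 : 0 ≤ (1 - q) * ((1 - d ^ 2) * ((1 - q) * (c ^ 2 * -dB ρ))) :=
    mul_nonneg hx (mul_nonneg (sub_nonneg.2 hd2) (mul_nonneg hx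
      (mul_nonneg (sq_nonneg c) (neg_nonneg.2 hdB))))
  have h2 : wB ρ * (2 + ρ) * (|c| * |d|) * q * (2 - c ^ 2 - d ^ 2) ≤
      wB ρ * (2 + ρ) * (|c| * |d|) * (2 - c ^ 2 - d ^ 2) :=
    mul_le_mul_of_nonneg_right (mul_le_of_le_one_right (by positivity) hq1) (by linarith)
  have hw : 0 ≤ wA ρ - c ^ 2 * q * wB ρ := by
    have := mul_le_mul_of_nonneg_right (mul_le_one₀ hc2 hq0 hq1) hB
    linarith [wB_lt hρ]
  have a1 : 8 * ρ * e * sq * (2 + ρ) * (wA ρ - c ^ 2 * q * wB ρ) ≤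
      8 * ρ * e * 1 * (2 + ρ) * (wA ρ - c ^ 2 * q * wB ρ) := by
    gcongr
  split_ifs with hρ1
  · have hcc : c ^ 2 ≤ |c| := by
      rw [← sq_abs, pow_two]
      exact mul_le_of_le_one_left (abs_nonneg c) hc
    have h4 := mul_le_mul_of_nonneg_left hcc
      (show 0 ≤ 8 * ρ * e * (2 + ρ) * wB ρ * (1 - q) by positivity)
    have h5 := mul_nonneg hx g0
    linarith
  · have h5 := mul_le_mul_of_nonneg_left (g1 (le_of_not_ge hρ1)) hx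
    linarith

/-- The loss of the regularisation. -/
def loss (η ρ c d : ℝ) : ℝ :=
  if 1 / 2 ≤ ρ then 8 * wB ρ * η ^ 2 / (ρ ^ 6 * (2 + ρ) ^ 3) * (|c| * max d 0) else 0

/-- The row integrand at `r = x ρ`, times `ρ ^ 5 * (2 + ρ) ^ 4`. -/
theorem kern_eval {η ρ x c d : ℝ} (hη : 0 < η) (hρ : 0 < ρ) (hx : 0 ≤ x)
    (hR : η ^ 2 + (x * ρ) ^ 2 = ρ ^ 2) :
    2200 * Dir.kern 9 (((9 : ℕ) : ℝ) - 1) (weight η) ((x * ρ) ^ 2 / 2) (x * ρ * c) d *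
        (ρ ^ 5 * (2 + ρ) ^ 4) =
      8 * (2 + ρ) * (wA ρ - c ^ 2 * x ^ 2 * wB ρ)
        + (1 - d ^ 2) * (x ^ 2 * (dA ρ - c ^ 2 * x ^ 2 * dB ρ - 2 * c ^ 2 * wB ρ * (2 + ρ)))
        - 2 * wB ρ * (2 + ρ) * (|c| * |d|) * x ^ 2 *
          (Real.sqrt (1 - d ^ 2) * Real.sqrt (1 - c ^ 2))
        - 8 * ρ * max d 0 * x * (2 + ρ) * (wA ρ - c ^ 2 * x ^ 2 * wB ρ) := by
  obtain ⟨r, hr⟩ : ∃ r, r = x * ρ := ⟨_, rfl⟩
  have hr0 : 0 ≤ r := by rw [hr]; positivity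
  have hR' : ρ ^ 2 = η ^ 2 + 2 * (r ^ 2 / 2) := by rw [hr]; linarith
  rw [← hr]
  obtain ⟨wa, wb⟩ := fderiv_weight hη.ne' (show 0 ≤ r ^ 2 / 2 by positivity) hρ hR' (r * c)
  have hw : weight η (r ^ 2 / 2, r * c) =
      (wA ρ / ρ ^ 5 - (r * c) ^ 2 * wB ρ / ρ ^ 7) / (2 + ρ) ^ 3 / 2200 := by
    have : dist' η (r ^ 2 / 2) = ρ := by
      rw [dist', rho2_of_gt hη.ne' (show -(η ^ 2 / 4) ≤ r ^ 2 / 2 by nlinarith), ← hR',
        Real.sqrt_sq hρ.le]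
    simp only [weight, this]
  have e2 : Real.sqrt (2 * (r ^ 2 / 2) - (r * c) ^ 2) = r * Real.sqrt (1 - c ^ 2) := by
    rw [show 2 * (r ^ 2 / 2) - (r * c) ^ 2 = r ^ 2 * (1 - c ^ 2) by ring,
      Real.sqrt_mul (sq_nonneg r), Real.sqrt_sq hr0]
  have e3 : Real.sqrt (2 * (r ^ 2 / 2)) = r := by
    rw [show 2 * (r ^ 2 / 2) = r ^ 2 by ring, Real.sqrt_sq hr0]
  have hB : 0 ≤ wB ρ := by unfold wB; positivity
  have e4 : |Dir.wb (weight η) (r ^ 2 / 2, r * c)| =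
      2 * (r * |c|) * wB ρ / (ρ ^ 7 * (2 + ρ) ^ 3) / 2200 := by
    rw [wb, abs_div, abs_div, abs_of_pos (show (0 : ℝ) < 2200 by norm_num),
      abs_of_pos (show (0 : ℝ) < ρ ^ 7 * (2 + ρ) ^ 3 by positivity), abs_mul, abs_mul, abs_mul,
      abs_of_nonneg hr0, abs_of_nonneg hB]
    norm_num
  simp only [Dir.kern, wa, hw, e2, e3, e4]
  rw [wb, hr]
  push_cast
  field_simp
  ring

/-- The row integrand is at least the flat one at the regularised distance. -/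
theorem kern_ge {η r c d : ℝ} (hη : 0 < η) (hr : 0 ≤ r) (hc : |c| ≤ 1) (hd : |d| ≤ 1) :
    psi (Real.sqrt (r ^ 2 + η ^ 2)) |c| |d| - 2200 - loss η (Real.sqrt (r ^ 2 + η ^ 2)) c d ≤
      2200 * Dir.kern 9 (((9 : ℕ) : ℝ) - 1) (weight η) (r ^ 2 / 2) (r * c) d := by
  obtain ⟨ρ, hρ⟩ : ∃ ρ, ρ = Real.sqrt (r ^ 2 + η ^ 2) := ⟨_, rfl⟩
  have hρ0 : 0 < ρ := hρ ▸ Real.sqrt_pos.2 (by positivity)
  have hρ2 : ρ ^ 2 = r ^ 2 + η ^ 2 := hρ ▸ Real.sq_sqrt (by positivity)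
  rw [← hρ]
  have hrρ : r ≤ ρ := hρ ▸ Real.le_sqrt_of_sq_le (by nlinarith)
  obtain ⟨x, hx⟩ : ∃ x, x = r / ρ := ⟨_, rfl⟩
  have hrx : r = x * ρ := by rw [hx, div_mul_cancel₀ _ hρ0.ne']
  have hx0 : 0 ≤ x := hx ▸ div_nonneg hr hρ0.le
  have hx1 : x ≤ 1 := hx ▸ (div_le_one hρ0).2 hrρ
  have ev := kern_eval (c := c) (d := d) hη hρ0 hx0 (by rw [← hrx]; linarith)
  rw [← hrx] at ev
  have key := regular_bracket hρ0 hc hd (sq_nonneg x) (pow_le_one₀ hx0 hx1) hx1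
  have hc2 : c ^ 2 ≤ 1 := by rw [← sq_abs]; exact pow_le_one₀ (abs_nonneg c) hc
  have hd2 : d ^ 2 ≤ 1 := by rw [← sq_abs]; exact pow_le_one₀ (abs_nonneg d) hd
  have hB : 0 ≤ wB ρ := by unfold wB; positivity
  have hsq : Real.sqrt (1 - d ^ 2) * Real.sqrt (1 - c ^ 2) ≤ (2 - c ^ 2 - d ^ 2) / 2 := by
    linarith [sq_nonneg (Real.sqrt (1 - d ^ 2) - Real.sqrt (1 - c ^ 2)),
      Real.sq_sqrt (sub_nonneg.2 hd2), Real.sq_sqrt (sub_nonneg.2 hc2)]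
  have hcross := mul_le_mul_of_nonneg_left hsq
    (show 0 ≤ 2 * wB ρ * (2 + ρ) * (|c| * |d|) * x ^ 2 by positivity)
  have hloss : (if 1 / 2 ≤ ρ then 8 * ρ * (2 + ρ) * wB ρ * (1 - x ^ 2) * (|c| * max d 0) else 0) =
      loss η ρ c d * (ρ ^ 5 * (2 + ρ) ^ 4) := by
    unfold loss
    split_ifs
    · have : η ^ 2 = (1 - x ^ 2) * ρ ^ 2 := by rw [hrx] at hρ2; linarith
      rw [this]
      field_simp
    · simp
  have hAB : c ^ 2 * wB ρ ≤ wA ρ := by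
    exact (mul_le_of_le_one_left hB hc2).trans (wB_lt hρ0).le
  have hlin : 8 * ρ * max d 0 * (2 + ρ) * (wA ρ - c ^ 2 * wB ρ) ≤
      8 * ρ * |d| * (2 + ρ) * (wA ρ - c ^ 2 * wB ρ) :=
    mul_le_mul_of_nonneg_right (mul_le_mul_of_nonneg_right (mul_le_mul_of_nonneg_left
      (max_le (le_abs_self d) (abs_nonneg d)) (by positivity)) (by positivity)) (sub_nonneg.2 hAB)
  have e5 : (psi ρ |c| |d| - 2200) * (ρ ^ 5 * (2 + ρ) ^ 4) =
      8 * (2 + ρ) * (wA ρ - c ^ 2 * wB ρ)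
        + (1 - d ^ 2) * (dA ρ - c ^ 2 * dB ρ - 2 * c ^ 2 * wB ρ * (2 + ρ))
        - wB ρ * (2 + ρ) * (|c| * |d|) * (2 - c ^ 2 - d ^ 2)
        - 8 * ρ * |d| * (2 + ρ) * (wA ρ - c ^ 2 * wB ρ) := by
    unfold psi
    rw [sq_abs, sq_abs]
    field_simp
    ring
  rw [hloss] at key
  refine le_of_mul_le_mul_right ?_ (show 0 < ρ ^ 5 * (2 + ρ) ^ 4 by positivity)
  rw [sub_mul, e5, ev]
  linarith

theorem loss_le {η ρ c d : ℝ} (hη : 0 < η) (hη1 : η ≤ 1) :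
    loss η ρ c d ≤ 1400000 * η * (|c| * |d|) := by
  unfold loss
  have hm : max d 0 ≤ |d| := max_le (le_abs_self d) (abs_nonneg d)
  split_ifs with h
  · have hρ : 0 < ρ := by linarith
    have h2 : 8 * wB ρ * η ^ 2 / (ρ ^ 6 * (2 + ρ) ^ 3) ≤ 1400000 * η := by
      rw [div_le_iff₀ (by positivity)]
      have h5 : (1 / 2 : ℝ) ^ 4 ≤ ρ ^ 4 := pow_le_pow_left₀ (by norm_num) h 4
      have h9 : 125 / 8 ≤ (2 + ρ) ^ 3 :=
        le_trans (by norm_num) (pow_le_pow_left₀ (by norm_num) (show 5 / 2 ≤ 2 + ρ by linarith) 3)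
      have h6 : 8 * wB ρ ≤ 1400000 * (ρ ^ 6 * (2 + ρ) ^ 3) := by
        have h10 : (1 / 2 : ℝ) ^ 4 * (125 / 8) ≤ ρ ^ 4 * (2 + ρ) ^ 3 :=
          mul_le_mul h5 h9 (by norm_num) (by positivity)
        have h11 := mul_le_mul_of_nonneg_left h10 (sq_nonneg ρ)
        unfold wB
        nlinarith
      have h7 := mul_le_mul_of_nonneg_right h6 (sq_nonneg η)
      have h8 := mul_le_mul_of_nonneg_left hη1
        (show 0 ≤ 1400000 * (ρ ^ 6 * (2 + ρ) ^ 3) * η by positivity)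
      linarith
    exact mul_le_mul h2 (mul_le_mul_of_nonneg_left hm (abs_nonneg c))
      (by positivity) (by positivity)
  · positivity

/-- The symmetrised integrand is at least the flat one at the regularised distance. -/
theorem sym_ge {η r c d : ℝ} (hη : 0 < η) (hη1 : η ≤ 1) (hr : 0 ≤ r) (hc : |c| ≤ 1)
    (hd : |d| ≤ 1) :
    psi (Real.sqrt (r ^ 2 + η ^ 2)) |c| |d| + psi (Real.sqrt (r ^ 2 + η ^ 2)) |d| |c|
        - 2800000 * η * (|c| * |d|) ≤ 2200 * Gen.sym 9 (weight η) r c d := by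
  have h1 := kern_ge hη hr hc hd
  have h2 := kern_ge hη hr hd hc
  have h3 := loss_le (c := c) (d := d) (ρ := Real.sqrt (r ^ 2 + η ^ 2)) hη hη1
  have h4 := loss_le (c := d) (d := c) (ρ := Real.sqrt (r ^ 2 + η ^ 2)) hη hη1
  rw [Gen.sym]
  linarith

/-- The two clauses of the certificate at a small enough regularisation. -/
theorem weight_at {ε T η : ℝ} (hη0 : 0 < η) (hη1 : η ≤ 1) (hT : 0 < T)
    (hηC : η * (2800000 * T ^ 8 + 2800000 + 673200) ≤ 2200 * ε) :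
    (∀ r c d, r ∈ Icc 0 T → c ∈ Icc (-1 : ℝ) 1 → d ∈ Icc (-1 : ℝ) 1 →
        -ε ≤ Gen.sym 9 (weight η) r c d) ∧
      ∀ r c d, r ∈ Ioc 0 T → c ∈ Ioc (0 : ℝ) 1 → d ∈ Ioc (0 : ℝ) 1 →
        aCoef c / 2200 * d + aCoef d / 2200 * c + 2 * (153 / 4) * c * d * r - ε * (c * d) ≤
          r ^ (9 - 1) * Gen.sym 9 (weight η) r c d := by
  obtain ⟨C, hC⟩ : ∃ C, C = 2800000 * T ^ 8 + 2800000 + 673200 := ⟨_, rfl⟩
  rw [← hC] at hηC
  have hT6 : 0 ≤ T ^ 8 := by positivity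
  refine ⟨?_, ?_⟩
  · intro r c d hr hc hd
    have hc1 : |c| ≤ 1 := abs_le.2 ⟨hc.1, hc.2⟩
    have hd1 : |d| ≤ 1 := abs_le.2 ⟨hd.1, hd.2⟩
    obtain ⟨ρ, hρ⟩ : ∃ ρ, ρ = Real.sqrt (r ^ 2 + η ^ 2) := ⟨_, rfl⟩
    have hρ0 : 0 < ρ := hρ ▸ Real.sqrt_pos.2 (by positivity)
    have h := sym_ge hη0 hη1 hr.1 hc1 hd1
    rw [← hρ] at h
    have h0 := psi_nonneg hρ0 (abs_nonneg c) hc1 (abs_nonneg d) hd1
    have h1 : |c| * |d| ≤ 1 := mul_le_one₀ hc1 (abs_nonneg d) hd1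
    have h2 := mul_le_mul_of_nonneg_left h1 (show 0 ≤ 2800000 * η by positivity)
    have h3 : 2800000 * η ≤ 2200 * ε := le_trans (by rw [hC]; nlinarith) hηC
    linarith
  · intro r c d hr hc hd
    obtain ⟨ρ, hρ⟩ : ∃ ρ, ρ = Real.sqrt (r ^ 2 + η ^ 2) := ⟨_, rfl⟩
    have hρ0 : 0 < ρ := hρ ▸ Real.sqrt_pos.2 (by positivity)
    have hr0 : 0 ≤ r := hr.1.le
    have hrρ : r ≤ ρ := hρ ▸ Real.le_sqrt_of_sq_le (by nlinarith [sq_nonneg η])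
    have hηρ : η ≤ ρ := hρ ▸ Real.le_sqrt_of_sq_le (by nlinarith)
    have hρ2 : ρ ^ 2 = r ^ 2 + η ^ 2 := hρ ▸ Real.sq_sqrt (by positivity)
    have h := sym_ge hη0 hη1 hr0 (abs_le.2 ⟨by linarith [hc.1], hc.2⟩)
      (abs_le.2 ⟨by linarith [hd.1], hd.2⟩)
    rw [← hρ, abs_of_pos hc.1, abs_of_pos hd.1] at h
    have hl := line_regular hr0 hrρ hρ0 hc.1.le hc.2 hd.1.le hd.2
    obtain ⟨x, hx⟩ : ∃ x, x = r / ρ := ⟨_, rfl⟩
    have hx0 : 0 ≤ x := hx ▸ div_nonneg hr0 hρ0.le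
    have hx1 : x ≤ 1 := hx ▸ (div_le_one hρ0).2 hrρ
    rw [← hx] at hl
    have e : (1 - x ^ 2) * ρ ^ 2 = η ^ 2 := by rw [hx]; field_simp; linarith
    have hd3 : r * (1 - x ^ 7) ≤ 4 * η := by
      have h6 : 1 - x ^ 7 ≤ 4 * (1 - x ^ 2) := by
        have h78 : x ^ 8 ≤ x ^ 7 := pow_le_pow_of_le_one hx0 hx1 (by norm_num)
        have hx2 : 0 ≤ 1 - x ^ 2 := sub_nonneg.2 (pow_le_one₀ hx0 hx1)
        have := mul_nonneg (sq_nonneg (1 - x ^ 2))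
          (show 0 ≤ 3 + 2 * x ^ 2 + x ^ 4 by positivity)
        linarith
      refine (mul_le_mul_of_nonneg_left h6 hr0).trans ?_
      refine le_of_mul_le_mul_right ?_ (pow_pos hρ0 2)
      calc r * (4 * (1 - x ^ 2)) * ρ ^ 2 = 4 * (r * η) * η := by linear_combination 4 * r * e
        _ ≤ 4 * (ρ * ρ) * η := mul_le_mul_of_nonneg_right (mul_le_mul_of_nonneg_left
            (mul_le_mul hrρ hηρ hη0.le hρ0.le) (by norm_num)) hη0.le
        _ = _ := by ring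
    obtain ⟨S, hS⟩ : ∃ S, S = Gen.sym 9 (weight η) r c d := ⟨_, rfl⟩
    rw [← hS] at h ⊢
    have h7 := mul_le_mul_of_nonneg_left h (pow_nonneg hr0 8)
    have hcd : 0 ≤ c * d := mul_nonneg hc.1.le hd.1.le
    have hrT := mul_le_mul_of_nonneg_right (pow_le_pow_left₀ hr0 hr.2 8)
      (show 0 ≤ 2800000 * η * (c * d) by positivity)
    have hd4 := mul_le_mul_of_nonneg_left hd3 (show 0 ≤ 168300 * (c * d) by positivity)
    have hC' := mul_le_mul_of_nonneg_right hηC hcd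
    rw [hC] at hC'
    have h0 : 0 ≤ η * (c * d) := mul_nonneg hη0.le hcd
    show _ ≤ r ^ 8 * S
    linarith

/-- The two clauses of the certificate for the weight. -/
theorem weight_cert {ε T : ℝ} (hε : 0 < ε) (hT : 0 < T) :
    ∃ w : ℝ × ℝ → ℝ, ContDiff ℝ 1 w ∧ (∀ p q, 0 ≤ p → q ^ 2 ≤ 2 * p → 0 < w (p, q)) ∧
      (∀ r c d, r ∈ Icc 0 T → c ∈ Icc (-1 : ℝ) 1 → d ∈ Icc (-1 : ℝ) 1 →
        -ε ≤ Gen.sym 9 w r c d) ∧
      ∀ r c d, r ∈ Ioc 0 T → c ∈ Ioc (0 : ℝ) 1 → d ∈ Ioc (0 : ℝ) 1 →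
        aCoef c / 2200 * d + aCoef d / 2200 * c + 2 * (153 / 4) * c * d * r - ε * (c * d) ≤
          r ^ (9 - 1) * Gen.sym 9 w r c d := by
  obtain ⟨C, hC⟩ : ∃ C, C = 2800000 * T ^ 8 + 2800000 + 673200 := ⟨_, rfl⟩
  have hC0 : 0 < C := by rw [hC]; positivity
  have hη0 : 0 < min 1 (2200 * ε / C) := lt_min one_pos (by positivity)
  obtain ⟨h1, h2⟩ := weight_at (ε := ε) hη0 (min_le_left _ _) hT
    (hC ▸ (le_div_iff₀ hC0).1 (min_le_right _ _))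
  exact ⟨_, contDiff_weight hη0.ne', fun p q hp hq => weight_pos hη0.ne' hp hq, h1, h2⟩

end Vale.Agent.P219.CH.Nine
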